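import Crest.Agent.R294.Exist

/-!
R294: normalised runs.  State type `Option σ` (`none` = accepted, moves right for ever), integer
tape positions `0 .. ℓ + 1` of the cells `leftEnd :: letters ++ [rightEnd]`.
-/

set_option autoImplicit false

namespace Crest.Agent.R294

open Crest.TwoWay

universe u v

variable {α : Type u} {σ : Type v}

/-- displacement of a head move -/
def disp : HeadMove → ℤ
  | HeadMove.moveLeft => -1
  | HeadMove.stay => 0
  | HeadMove.moveRight => 1

/-- rules of the normalised machine on `Option σ`. -/
def rule (M : TwoWayNFA α σ) : Option σ → Cell α → Set (Option σ × HeadMove)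
  | none, _ => {p | p = (none, HeadMove.moveRight)}
  | some q, c => {p | (q ∈ M.accept ∧ p = (none, HeadMove.moveRight)) ∨
      (q ∉ M.accept ∧ ∃ q' m, (q', m) ∈ M.step q c ∧ p = (some q', m) ∧
        ¬ (c = Cell.leftEnd ∧ m = HeadMove.moveLeft) ∧
        ¬ (c = Cell.rightEnd ∧ m = HeadMove.moveRight))}

theorem rule_det (M : TwoWayNFA α σ) (hM : M.IsDeterministic) (q : Option σ) (c : Cell α) :
    (rule M q c).Subsingleton := by
  intro p hp p' hp'
  cases q with
  | none =>
    have h1 : p = (none, HeadMove.moveRight) := hp
    have h2 : p' = (none, HeadMove.moveRight) := hp'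
    rw [h1, h2]
  | some q =>
    rcases hp with ⟨h1, h2⟩ | ⟨h1, q1, m1, h2, h3, _, _⟩
    · rcases hp' with ⟨_, h5⟩ | ⟨h4, _⟩
      · rw [h2, h5]
      · exact absurd h1 h4
    · rcases hp' with ⟨h4, _⟩ | ⟨_, q2, m2, h5, h6, _, _⟩
      · exact absurd h4 h1
      · have := hM q c h2 h5
        rw [h3, h6]
        simp only [Prod.mk.injEq] at this
        rw [this.1, this.2]

/-- one step on a partial tape `T : ℤ → Option (Cell α)`. -/
def ZStep (M : TwoWayNFA α σ) (T : ℤ → Option (Cell α)) (x y : Option σ × ℤ) : Prop :=
  ∃ c m, T x.2 = some c ∧ (y.1, m) ∈ rule M x.1 c ∧ y.2 = x.2 + disp m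

/-- the tape of a list of cells, starting at position `0`. -/
def tapeOf (L : List (Cell α)) : ℤ → Option (Cell α) := fun i =>
  if 0 ≤ i then L[i.toNat]? else none

/-- the full list of cells of an input word -/
def fullCells (w : List α) : List (Cell α) :=
  Cell.leftEnd :: (w.map Cell.letter ++ [Cell.rightEnd])

theorem fullCells_length (w : List α) : (fullCells w).length = w.length + 2 := by
  simp [fullCells]

theorem fullCells_get (w : List α) (i : ℕ) (hi : i ≤ w.length + 1) :
    (fullCells w)[i]? = some (scan w i) := by
  cases i with
  | zero => simp [fullCells, scan]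
  | succ i =>
    rcases Nat.lt_or_ge i w.length with h | h
    · rw [scan_succ w i h]
      simp [fullCells, List.getElem?_append, h]
    · have : i = w.length := by omega
      subst this
      rw [scan_last]
      simp [fullCells]

theorem tapeOf_full (w : List α) (i : ℕ) (hi : i ≤ w.length + 1) :
    tapeOf (fullCells w) (i : ℤ) = some (scan w i) := by
  have : (0 : ℤ) ≤ (i : ℤ) := by omega
  simp only [tapeOf, this, if_true, Int.toNat_natCast]
  exact fullCells_get w i hi

theorem tapeOf_some {L : List (Cell α)} {i : ℤ} {c : Cell α} (h : tapeOf L i = some c) :
    0 ≤ i ∧ i.toNat < L.length ∧ L[i.toNat]? = some c := by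
  unfold tapeOf at h
  split_ifs at h with h0
  refine ⟨h0, ?_, h⟩
  rw [List.getElem?_eq_some_iff] at h
  exact h.1

theorem zrun_none (M : TwoWayNFA α σ) (w : List α) (k : ℕ) :
    ∀ i : ℕ, i + k = w.length + 2 →
    Relation.ReflTransGen (ZStep M (tapeOf (fullCells w))) (none, (i : ℤ))
      (none, ((w.length + 2 : ℕ) : ℤ)) := by
  induction k with
  | zero =>
    intro i hi
    have : i = w.length + 2 := by omega
    rw [this]
  | succ k ih =>
    intro i hi
    refine Relation.ReflTransGen.head ?_ (ih (i + 1) (by omega))
    refine ⟨scan w i, HeadMove.moveRight, tapeOf_full w i (by omega), ?_, ?_⟩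
    · show _ ∈ rule M none _
      exact rfl
    · simp [disp]

theorem accepts_iff_zrun (M : TwoWayNFA α σ) (w : List α) :
    M.Accepts w ↔ Relation.ReflTransGen (ZStep M (tapeOf (fullCells w))) (some M.start, 0)
      (none, ((w.length + 2 : ℕ) : ℤ)) := by
  constructor
  · rintro ⟨c, hr, hc⟩
    have key : ∀ x : σ × ℕ, Relation.ReflTransGen (M.Step w) x c → x.2 ≤ w.length + 1 →
        Relation.ReflTransGen (ZStep M (tapeOf (fullCells w))) (some x.1, (x.2 : ℤ))
          (none, ((w.length + 2 : ℕ) : ℤ)) := by
      have acc : ∀ x : σ × ℕ, x.1 ∈ M.accept → x.2 ≤ w.length + 1 →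
          Relation.ReflTransGen (ZStep M (tapeOf (fullCells w))) (some x.1, (x.2 : ℤ))
            (none, ((w.length + 2 : ℕ) : ℤ)) := by
        intro x hx hle
        refine Relation.ReflTransGen.head (b := (none, ((x.2 + 1 : ℕ) : ℤ))) ?_
          (zrun_none M w (w.length + 2 - (x.2 + 1)) (x.2 + 1) (by omega))
        refine ⟨scan w x.2, HeadMove.moveRight, tapeOf_full w x.2 hle, ?_, ?_⟩
        · exact Or.inl ⟨hx, rfl⟩
        · simp [disp]
      intro x hx
      induction hx using Relation.ReflTransGen.head_induction_on with
      | refl => exact acc c hc
      | @head x y hxy _ ih =>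
        intro hle
        by_cases hxa : x.1 ∈ M.accept
        · exact acc x hxa hle
        obtain ⟨m, hm, hpos⟩ := hxy
        cases m with
        | moveLeft =>
          have h0 : x.2 ≠ 0 := by
            intro h0
            simp [movePos, h0] at hpos
          simp only [movePos, h0, if_false, Option.some.injEq] at hpos
          refine Relation.ReflTransGen.head ?_ (ih (by omega))
          refine ⟨scan w x.2, HeadMove.moveLeft, tapeOf_full w x.2 hle, ?_, ?_⟩
          · refine Or.inr ⟨hxa, y.1, HeadMove.moveLeft, hm, rfl, ?_, ?_⟩
            · rintro ⟨hs, _⟩
              have : 1 ≤ x.2 := by omega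
              obtain ⟨j, hj⟩ : ∃ j, x.2 = j + 1 := ⟨x.2 - 1, by omega⟩
              rw [hj] at hs
              rcases Nat.lt_or_ge j w.length with h | h
              · rw [scan_succ w j h] at hs
                cases hs
              · have : j = w.length := by omega
                rw [this, scan_last] at hs
                cases hs
            · rintro ⟨_, h2⟩
              cases h2
          · simp only [disp]
            omega
        | stay =>
          simp only [movePos, Option.some.injEq] at hpos
          refine Relation.ReflTransGen.head ?_ (ih (by omega))
          refine ⟨scan w x.2, HeadMove.stay, tapeOf_full w x.2 hle, ?_, ?_⟩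
          · refine Or.inr ⟨hxa, y.1, HeadMove.stay, hm, rfl, ?_, ?_⟩
            · rintro ⟨_, h2⟩
              cases h2
            · rintro ⟨_, h2⟩
              cases h2
          · simp only [disp]
            omega
        | moveRight =>
          have h0 : ¬ (w.length + 1 ≤ x.2) := by
            intro h0
            simp [movePos, h0] at hpos
          simp only [movePos, h0, if_false, Option.some.injEq] at hpos
          refine Relation.ReflTransGen.head ?_ (ih (by omega))
          refine ⟨scan w x.2, HeadMove.moveRight, tapeOf_full w x.2 hle, ?_, ?_⟩
          · refine Or.inr ⟨hxa, y.1, HeadMove.moveRight, hm, rfl, ?_, ?_⟩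
            · rintro ⟨_, h2⟩
              cases h2
            · rintro ⟨hs, _⟩
              cases hx2 : x.2 with
              | zero =>
                rw [hx2, scan_zero] at hs
                cases hs
              | succ j =>
                rw [hx2, scan_succ w j (by omega)] at hs
                cases hs
          · simp only [disp]
            omega
    have := key (M.start, 0) hr (Nat.zero_le _)
    simpa using this
  · intro hr
    have key : ∀ x : Option σ × ℤ, Relation.ReflTransGen (ZStep M (tapeOf (fullCells w))) x
        (none, ((w.length + 2 : ℕ) : ℤ)) → ∀ q, x.1 = some q →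
        ∃ c : σ × ℕ, Relation.ReflTransGen (M.Step w) (q, x.2.toNat) c ∧ c.1 ∈ M.accept := by
      intro x hx
      induction hx using Relation.ReflTransGen.head_induction_on with
      | refl =>
        intro q hq
        cases hq
      | @head x y hxy _ ih =>
        intro q hq
        obtain ⟨c, m, hc, hm, hy⟩ := hxy
        rw [hq] at hm
        rcases hm with ⟨h1, _⟩ | ⟨h1, q', m', h2, h3, h4, h5⟩
        · exact ⟨_, Relation.ReflTransGen.refl, h1⟩
        · have h3a : y.1 = some q' := congrArg Prod.fst h3
          have h3b : m = m' := congrArg Prod.snd h3
          subst h3b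
          obtain ⟨d, hd, hda⟩ := ih q' h3a
          refine ⟨d, Relation.ReflTransGen.head ?_ hd, hda⟩
          obtain ⟨h6, h7, h8⟩ := tapeOf_some hc
          rw [fullCells_length] at h7
          have h9 : scan w x.2.toNat = c := by
            have := fullCells_get w x.2.toNat (by omega)
            rw [this] at h8
            exact Option.some.inj h8
          refine ⟨m, ?_, ?_⟩
          · show (q', m) ∈ M.step q (scan w x.2.toNat)
            rw [h9]
            exact h2
          · show movePos w.length x.2.toNat m = some y.2.toNat
            cases m with
            | moveLeft =>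
              have h0 : x.2.toNat ≠ 0 := by
                intro h0
                rw [h0, scan_zero] at h9
                exact h4 ⟨h9.symm, rfl⟩
              simp only [movePos, h0, if_false, Option.some.injEq]
              simp only [disp] at hy
              omega
            | stay =>
              simp only [movePos, Option.some.injEq]
              simp only [disp] at hy
              omega
            | moveRight =>
              have h0 : ¬ (w.length + 1 ≤ x.2.toNat) := by
                intro h0
                have : x.2.toNat = w.length + 1 := by omega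
                rw [this, scan_last] at h9
                exact h5 ⟨h9.symm, rfl⟩
              simp only [movePos, h0, if_false, Option.some.injEq]
              simp only [disp] at hy
              omega
    have := key _ hr M.start rfl
    simpa [TwoWayNFA.Accepts] using this

end Crest.Agent.R294
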