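import Crest.Agent.R294.Beh
import Crest.Agent.R294.Tape

/-!
R294: bridge from `TwoWayNFA` to the block calculus.
-/

set_option autoImplicit false

namespace Crest.Agent.R294

open Crest.TwoWay

universe u v

variable {α : Type u} {σ : Type v}



/-- behaviour of a single cell (does not depend on the entry side) -/
def cellBeh (M : TwoWayNFA α σ) (c : Cell α) : Beh (Option σ) := fun x y =>
  ∃ p, Relation.ReflTransGen (fun a b => (b, HeadMove.stay) ∈ rule M a c) x.2 p ∧
    (y.2, if y.1 = true then HeadMove.moveRight else HeadMove.moveLeft) ∈ rule M p c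

/-- letter behaviours -/
def letBeh (M : TwoWayNFA α σ) (a : α) : Beh (Option σ) := cellBeh M (Cell.letter a)

/-! ### soundness -/

/-- the block `p`, placed at positions `[i, i + n)` of the tape, is realised by runs -/
def Realizes (M : TwoWayNFA α σ) (T : ℤ → Option (Cell α)) (i n : ℤ) (p : Beh (Option σ)) : Prop :=
  ∀ x y, p x y → Relation.ReflTransGen (ZStep M T) (x.2, if x.1 = true then i else i + n - 1)
    (y.2, if y.1 = true then i + n else i - 1)

theorem realizes_one (M : TwoWayNFA α σ) (T : ℤ → Option (Cell α)) (i : ℤ) :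
    Realizes M T i 0 one := by
  intro x y hxy
  have : x = y := hxy
  subst this
  have : (if x.1 = true then i else i + 0 - 1) = (if x.1 = true then i + 0 else i - 1) := by
    split_ifs <;> ring
  rw [this]

theorem realizes_mid {M : TwoWayNFA α σ} {T : ℤ → Option (Cell α)} {i n m : ℤ}
    {p q : Beh (Option σ)} (hp : Realizes M T i n p) (hq : Realizes M T (i + n) m q)
    {x y : DS (Option σ)} (h : Mid p q x y) :
    Relation.ReflTransGen (ZStep M T) (x.2, if x.1 = true then i + n else i + n - 1)
      (y.2, if y.1 = true then i + n + m else i - 1) := by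
  obtain ⟨x', hr, hxy, hs⟩ := h
  have h1 : Relation.ReflTransGen (ZStep M T) (x.2, if x.1 = true then i + n else i + n - 1)
      (x'.2, if x'.1 = true then i + n else i + n - 1) := by
    clear hs hxy
    induction hr with
    | refl => exact Relation.ReflTransGen.refl
    | @tail b c _ hbc ih =>
      refine ih.trans ?_
      obtain ⟨hne, hsel⟩ := hbc
      unfold sel at hsel
      rcases hb : b.1 with _ | _
      · have hc : c.1 = true := by
          rw [hb] at hne
          cases h' : c.1 with
          | false => exact absurd h'.symm hne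
          | true => rfl
        rw [hb] at hsel
        have := hp b c (by simpa using hsel)
        rw [hb, hc] at this
        simpa [hc] using this
      · have hc : c.1 = false := by
          rw [hb] at hne
          cases h' : c.1 with
          | false => rfl
          | true => exact absurd h'.symm hne
        rw [hb] at hsel
        have := hq b c (by simpa using hsel)
        rw [hb, hc] at this
        simpa [hc] using this
  refine h1.trans ?_
  unfold sel at hs
  rcases hb : x'.1 with _ | _
  · rw [hb] at hs hxy
    have := hp x' y (by simpa using hs)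
    rw [hb, ← hxy] at this
    simpa [← hxy] using this
  · rw [hb] at hs hxy
    have := hq x' y (by simpa using hs)
    rw [hb, ← hxy] at this
    simpa [← hxy] using this

theorem realizes_mul {M : TwoWayNFA α σ} {T : ℤ → Option (Cell α)} {i n m : ℤ}
    {p q : Beh (Option σ)} (hp : Realizes M T i n p) (hq : Realizes M T (i + n) m q) :
    Realizes M T i (n + m) (p ⊙ q) := by
  intro x y hxy
  rcases hxy with ⟨hx, h⟩ | ⟨hx, h⟩
  · rcases h with ⟨hy, h⟩ | ⟨x1, hx1, h1, h2⟩
    · have := hp x y h
      rw [hx, hy] at this ⊢
      simpa using this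
    · have h3 := hp x x1 h1
      have h4 := realizes_mid hp hq h2
      rw [hx1] at h3 h4
      rw [hx] at h3 ⊢
      have h5 : i + (n + m) = i + n + m := by ring
      rw [h5]
      simp only [if_true] at h3 h4 ⊢
      exact h3.trans h4
  · rcases h with ⟨hy, h⟩ | ⟨x1, hx1, h1, h2⟩
    · have := hq x y h
      rw [hx, hy] at this ⊢
      have h5 : i + (n + m) = i + n + m := by ring
      rw [h5]
      simpa using this
    · have h3 := hq x x1 h1
      have h4 := realizes_mid hp hq h2
      rw [hx1] at h3 h4
      rw [hx] at h3 ⊢
      have h5 : i + (n + m) = i + n + m := by ring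
      rw [h5]
      simp only [Bool.false_eq_true, if_false] at h3 h4 ⊢
      exact h3.trans h4

theorem realizes_cell (M : TwoWayNFA α σ) (T : ℤ → Option (Cell α)) (i : ℤ) (c : Cell α)
    (hc : T i = some c) : Realizes M T i 1 (cellBeh M c) := by
  intro x y hxy
  obtain ⟨p, hp, hy⟩ := hxy
  have h0 : (if x.1 = true then i else i + 1 - 1) = i := by split_ifs <;> ring
  rw [h0]
  have h1 : Relation.ReflTransGen (ZStep M T) (x.2, i) (p, i) := by
    clear hy
    induction hp with
    | refl => exact Relation.ReflTransGen.refl
    | @tail b d _ hbd ih =>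
      refine ih.tail ?_
      exact ⟨c, HeadMove.stay, hc, hbd, by simp [disp]⟩
  refine h1.tail ?_
  refine ⟨c, _, hc, hy, ?_⟩
  rcases hb : y.1 with _ | _
  · simp [disp]; ring
  · simp [disp]

theorem realizes_wd (M : TwoWayNFA α σ) (T : ℤ → Option (Cell α)) (L : List (Cell α)) :
    ∀ i : ℤ, (∀ k : ℕ, ∀ c, L[k]? = some c → T (i + k) = some c) →
      Realizes M T i L.length (wd (cellBeh M) L) := by
  induction L with
  | nil => intro i _; exact realizes_one M T i
  | cons d L ih =>
    intro i hi
    have h1 : Realizes M T i 1 (cellBeh M d) := by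
      apply realizes_cell
      have := hi 0 d (by simp)
      simpa using this
    have h2 : Realizes M T (i + 1) L.length (wd (cellBeh M) L) := by
      apply ih
      intro k c hk
      have := hi (k + 1) c (by simpa using hk)
      rw [← this]
      congr 1
      push_cast
      ring
    have h3 := realizes_mul h1 h2
    have h4 : ((d :: L).length : ℤ) = 1 + L.length := by
      push_cast [List.length_cons]; ring
    rw [h4]
    exact h3

/-! ### completeness -/

theorem mid_replace {p r : Beh (Option σ)} {q q' : Option σ} {y : DS (Option σ)}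
    (h : ∀ y, r (true, q') y → r (true, q) y) (hm : Mid p r (true, q') y) :
    Mid p r (true, q) y := by
  obtain ⟨x', hr, hxy, hs⟩ := hm
  rcases Relation.ReflTransGen.cases_head hr with h0 | ⟨z, hz, hr'⟩
  · rw [← h0] at hs hxy
    refine ⟨(true, q), Relation.ReflTransGen.refl, hxy, ?_⟩
    unfold sel at hs ⊢
    simp only [if_true] at hs ⊢
    exact h _ hs
  · refine ⟨x', Relation.ReflTransGen.head ?_ hr', hxy, hs⟩
    obtain ⟨hne, hsel⟩ := hz
    refine ⟨hne, ?_⟩
    unfold sel at hsel ⊢
    simp only [if_true] at hsel ⊢
    exact h _ hsel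

theorem cellBeh_side (M : TwoWayNFA α σ) (c : Cell α) (b b' : Bool) (q : Option σ)
    (y : DS (Option σ)) : cellBeh M c (b, q) y ↔ cellBeh M c (b', q) y := Iff.rfl

theorem complete_step (M : TwoWayNFA α σ) (L : List (Cell α)) {x : Option σ × ℤ} {N : ℤ}
    (hN : N = L.length)
    (hx : Relation.ReflTransGen (ZStep M (tapeOf L)) x (none, N)) :
    ∃ u v : List (Cell α), L = u ++ v ∧ (u.length : ℤ) = x.2 ∧
      Mid (wd (cellBeh M) u) (wd (cellBeh M) v) (true, x.1) (true, none) := by
  induction hx using Relation.ReflTransGen.head_induction_on with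
  | refl =>
    refine ⟨L, [], by simp, by simp [hN], ?_⟩
    exact Mid.exit rfl (by simp [sel, wd, one])
  | @head x y hxy _ ih =>
    obtain ⟨c, m, hc, hm, hy⟩ := hxy
    obtain ⟨h0, h1, h2⟩ := tapeOf_some hc
    obtain ⟨u2, v2, hL, hu2, hmid⟩ := ih
    have hget : L[x.2.toNat] = c := by
      rw [List.getElem?_eq_getElem h1] at h2
      exact Option.some.inj h2
    have hsplit : L = L.take x.2.toNat ++ c :: L.drop (x.2.toNat + 1) := by
      conv_lhs => rw [← List.take_append_drop x.2.toNat L, List.drop_eq_getElem_cons h1, hget]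
    have htl : (L.take x.2.toNat).length = x.2.toNat := by
      rw [List.length_take]; omega
    refine ⟨L.take x.2.toNat, c :: L.drop (x.2.toNat + 1), hsplit, by rw [htl]; omega, ?_⟩
    set u := L.take x.2.toNat with hu
    set v' := L.drop (x.2.toNat + 1) with hv'
    have hwd : wd (cellBeh M) (c :: v') = cellBeh M c ⊙ wd (cellBeh M) v' := rfl
    rw [hwd]
    cases m with
    | stay =>
      simp only [disp] at hy
      have hlen : u2.length = u.length := by omega
      have heq : u2 ++ v2 = u ++ c :: v' := by rw [← hL]; exact hsplit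
      obtain ⟨rfl, rfl⟩ := List.append_inj heq hlen
      rw [hwd] at hmid
      refine mid_replace ?_ hmid
      intro z hz
      rcases hz with ⟨_, h⟩ | ⟨h, _⟩
      · left
        refine ⟨rfl, ?_⟩
        have key : ∀ z, cellBeh M c (true, y.1) z → cellBeh M c (true, x.1) z := by
          rintro z ⟨p, hp, hz⟩
          exact ⟨p, Relation.ReflTransGen.head hm hp, hz⟩
        rcases h with ⟨h3, h4⟩ | ⟨x1, h3, h4, h5⟩
        · exact Or.inl ⟨h3, key _ h4⟩
        · exact Or.inr ⟨x1, h3, key _ h4, h5⟩
      · simp at h
    | moveRight =>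
      simp only [disp] at hy
      have hlen : u2.length = (u ++ [c]).length := by
        rw [List.length_append, List.length_singleton]; omega
      have heq : u2 ++ v2 = (u ++ [c]) ++ v' := by
        rw [← hL, List.append_assoc]; exact hsplit
      obtain ⟨rfl, rfl⟩ := List.append_inj heq hlen
      rw [wd_append] at hmid
      have h3 : wd (cellBeh M) [c] = cellBeh M c := mul_one' _
      rw [h3] at hmid
      rw [mid_mul_right]
      right
      refine ⟨(true, y.1), rfl, ?_, hmid⟩
      refine Mid.exit rfl ?_
      show sel _ _ _ _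
      unfold sel
      simp only [if_true]
      exact ⟨x.1, Relation.ReflTransGen.refl, by simpa using hm⟩
    | moveLeft =>
      simp only [disp] at hy
      have hlenu : u.length = u2.length + 1 := by omega
      -- u = u2 ++ [e]
      have heq : u2 ++ v2 = u ++ c :: v' := by rw [← hL]; exact hsplit
      have hu_eq : u = u2 ++ v2.take 1 := by
        have h5 := congrArg (List.take u.length) heq
        rw [List.take_left, hlenu, List.take_append] at h5
        rw [← h5]
        simp
      have hv_eq : v2 = v2.take 1 ++ (c :: v') := by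
        have h5 : u2 ++ v2 = u2 ++ (v2.take 1 ++ (c :: v')) := by
          rw [heq, ← List.append_assoc, ← hu_eq]
        exact List.append_cancel_left h5
      obtain ⟨e, he⟩ : ∃ e, v2.take 1 = [e] := by
        have h5 : (v2.take 1).length = 1 := by
          have := congrArg List.length hu_eq
          rw [List.length_append] at this
          omega
        exact List.length_eq_one_iff.1 h5
      rw [he] at hu_eq hv_eq
      rw [hv_eq] at hmid
      have h3 : wd (cellBeh M) ([e] ++ (c :: v')) = cellBeh M e ⊙ (cellBeh M c ⊙ wd (cellBeh M) v') :=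
        rfl
      rw [h3, mid_mul_right] at hmid
      rcases hmid with ⟨h4, _⟩ | ⟨x1, hx1, h4, h5⟩
      · simp at h4
      rw [hu_eq, wd_append]
      have h6 : wd (cellBeh M) [e] = cellBeh M e := mul_one' _
      rw [h6]
      have s1 : Refl (wd (cellBeh M) u2 ⊙ cellBeh M e) (cellBeh M c ⊙ wd (cellBeh M) v')
          (true, x.1) (false, y.1) := by
        refine ⟨by simp, ?_⟩
        unfold sel
        simp only [if_true]
        left
        refine ⟨rfl, Or.inl ⟨rfl, ?_⟩⟩
        exact ⟨x.1, Relation.ReflTransGen.refl, by simpa using hm⟩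
      have s2 : Refl (wd (cellBeh M) u2 ⊙ cellBeh M e) (cellBeh M c ⊙ wd (cellBeh M) v')
          (false, y.1) x1 := by
        refine ⟨by simp [hx1], ?_⟩
        unfold sel
        simp only [Bool.false_eq_true, if_false]
        right
        refine ⟨rfl, ?_⟩
        obtain ⟨x', hr, hxy, hs⟩ := h4
        rcases Relation.ReflTransGen.cases_head hr with h0 | ⟨z, hz, hr'⟩
        · left
          refine ⟨hx1, ?_⟩
          rw [← h0] at hs
          unfold sel at hs
          have hs' : cellBeh M e (true, y.1) x1 := by simpa using hs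
          exact hs'
        · right
          obtain ⟨hne, hsel⟩ := hz
          have hz1 : z.1 = false := by
            cases h' : z.1 with
            | false => rfl
            | true => exact absurd h'.symm hne
          refine ⟨z, hz1, ?_, ⟨x', hr', hxy, hs⟩⟩
          unfold sel at hsel
          have hs' : cellBeh M e (true, y.1) z := by simpa using hsel
          exact hs'
      exact Mid.cons s1 (Mid.cons s2 h5)

theorem accepts_iff (M : TwoWayNFA α σ) (w : List α) :
    M.Accepts w ↔ wd (cellBeh M) (fullCells w) (true, some M.start) (true, none) := by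
  rw [accepts_iff_zrun]
  constructor
  · intro h
    obtain ⟨u, v, hL, hu, hmid⟩ := complete_step M (fullCells w)
      (by rw [fullCells_length]) h
    have hu0 : u = [] := by
      have : u.length = 0 := by
        have h1 : ((u.length : ℕ) : ℤ) = 0 := hu
        omega
      exact List.length_eq_zero_iff.1 this
    subst hu0
    rw [List.nil_append] at hL
    subst hL
    have h1 : (one ⊙ wd (cellBeh M) (fullCells w)) (true, some M.start) (true, none) := by
      left
      refine ⟨rfl, Or.inr ⟨(true, some M.start), rfl, rfl, hmid⟩⟩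
    rwa [one_mul'] at h1
  · intro h
    have h1 := realizes_wd M (tapeOf (fullCells w)) (fullCells w) 0 (by
      intro k c hk
      simp only [tapeOf, zero_add]
      have : (0 : ℤ) ≤ (k : ℤ) := by omega
      simp only [this, if_true, Int.toNat_natCast]
      exact hk) _ _ h
    rw [fullCells_length] at h1
    simpa using h1

theorem wd_map (M : TwoWayNFA α σ) (w : List α) :
    wd (cellBeh M) (w.map Cell.letter) = wd (letBeh M) w := by
  simp only [wd, List.map_map]
  rfl

theorem accepts_iff' (M : TwoWayNFA α σ) (w : List α) :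
    M.Accepts w ↔ (cellBeh M Cell.leftEnd ⊙ (wd (letBeh M) w ⊙ cellBeh M Cell.rightEnd))
      (true, some M.start) (true, none) := by
  rw [accepts_iff]
  have h1 : wd (cellBeh M) (fullCells w) =
      cellBeh M Cell.leftEnd ⊙ (wd (letBeh M) w ⊙ cellBeh M Cell.rightEnd) := by
    have h2 : wd (cellBeh M) (fullCells w) = cellBeh M Cell.leftEnd ⊙
      wd (cellBeh M) (w.map Cell.letter ++ [Cell.rightEnd]) := rfl
    rw [h2, wd_append, wd_map]
    have h3 : wd (cellBeh M) [Cell.rightEnd] = cellBeh M Cell.rightEnd := mul_one' _
    rw [h3]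
  rw [h1]

/-- acceptance of `u ++ z ++ v` -/
theorem accepts_iff3 (M : TwoWayNFA α σ) (u z v : List α) :
    M.Accepts (u ++ z ++ v) ↔ (cellBeh M Cell.leftEnd ⊙ (wd (letBeh M) u ⊙ wd (letBeh M) z ⊙
      wd (letBeh M) v ⊙ cellBeh M Cell.rightEnd)) (true, some M.start) (true, none) := by
  rw [accepts_iff', wd_append, wd_append]

/-! ### monotonicity: the nondeterministic case -/

theorem separates_nfa {h : ℕ} (B : TwoWayNFA (Let h) σ)
    (hB : B.language = (liveness h)ᶜ) : Separates (letBeh B) := by
  intro u z X v _ hle hdead
  have h1 : B.Accepts (u ++ z ++ v) := by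
    have : u ++ z ++ v ∈ B.language := by rw [hB]; exact hdead
    exact this
  have h2 : B.Accepts (u ++ X ++ v) := by
    rw [accepts_iff3] at h1 ⊢
    refine mul_mono (fun _ _ h => h) ?_ h1
    intro x y
    refine mul_mono ?_ (fun _ _ h => h)
    intro x y
    refine mul_mono ?_ (fun _ _ h => h)
    intro x y
    exact mul_mono (fun _ _ h => h) hle
  have h3 : u ++ X ++ v ∈ B.language := h2
  rw [hB] at h3
  exact h3

/-! ### determinism -/

/-- functional behaviours -/
def Fun (p : Beh (Option σ)) : Prop := ∀ x y y', p x y → p x y' → y = y'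

theorem fun_one : Fun (one : Beh (Option σ)) := by
  intro x y y' h h'
  have h1 : x = y := h
  have h2 : x = y' := h'
  rw [← h1, ← h2]

theorem fun_sel {p q : Beh (Option σ)} (hp : Fun p) (hq : Fun q) {x y y' : DS (Option σ)}
    (h : sel p q x y) (h' : sel p q x y') : y = y' := by
  unfold sel at h h'
  split_ifs at h h' with hx
  · exact hq _ _ _ h h'
  · exact hp _ _ _ h h'

theorem fun_mid {p q : Beh (Option σ)} (hp : Fun p) (hq : Fun q) {x y y' : DS (Option σ)}
    (h : Mid p q x y) (h' : Mid p q x y') : y = y' := by
  obtain ⟨z, hr, hz, hs⟩ := h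
  obtain ⟨z', hr', hz', hs'⟩ := h'
  induction hr using Relation.ReflTransGen.head_induction_on with
  | refl =>
    rcases Relation.ReflTransGen.cases_head hr' with h0 | ⟨t, ht, _⟩
    · subst h0
      exact fun_sel hp hq hs hs'
    · exfalso
      have := fun_sel hp hq hs ht.2
      subst this
      exact ht.1 hz
  | @head a b hab _ ih =>
    rcases Relation.ReflTransGen.cases_head hr' with h0 | ⟨t, ht, hr''⟩
    · exfalso
      subst h0
      have := fun_sel hp hq hs' hab.2
      subst this
      exact hab.1 hz'
    · have := fun_sel hp hq ht.2 hab.2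
      subst this
      exact ih hr''

theorem fun_mul {p q : Beh (Option σ)} (hp : Fun p) (hq : Fun q) : Fun (p ⊙ q) := by
  intro x y y' h h'
  rcases h with ⟨hx, h⟩ | ⟨hx, h⟩
  · rcases h' with ⟨_, h'⟩ | ⟨hx', _⟩
    · rcases h with ⟨h1, h2⟩ | ⟨x1, h1, h2, h3⟩ <;>
        rcases h' with ⟨h1', h2'⟩ | ⟨x1', h1', h2', h3'⟩
      · exact hp _ _ _ h2 h2'
      · have := hp _ _ _ h2 h2'
        subst this
        rw [h1] at h1'
        cases h1'
      · have := hp _ _ _ h2 h2'
        subst this
        rw [h1] at h1'
        cases h1'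
      · have := hp _ _ _ h2 h2'
        subst this
        exact fun_mid hp hq h3 h3'
    · rw [hx] at hx'
      cases hx'
  · rcases h' with ⟨hx', _⟩ | ⟨_, h'⟩
    · rw [hx] at hx'
      cases hx'
    · rcases h with ⟨h1, h2⟩ | ⟨x1, h1, h2, h3⟩ <;>
        rcases h' with ⟨h1', h2'⟩ | ⟨x1', h1', h2', h3'⟩
      · exact hq _ _ _ h2 h2'
      · have := hq _ _ _ h2 h2'
        subst this
        rw [h1] at h1'
        cases h1'
      · have := hq _ _ _ h2 h2'
        subst this
        rw [h1] at h1'
        cases h1'
      · have := hq _ _ _ h2 h2'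
        subst this
        exact fun_mid hp hq h3 h3'

theorem fun_cell (M : TwoWayNFA α σ) (hM : M.IsDeterministic) (c : Cell α) :
    Fun (cellBeh M c) := by
  intro x y y' h h'
  obtain ⟨p, hp, hy⟩ := h
  obtain ⟨p', hp', hy'⟩ := h'
  have key : ∀ a : Option σ, Relation.ReflTransGen (fun a b => (b, HeadMove.stay) ∈ rule M a c) a p →
      Relation.ReflTransGen (fun a b => (b, HeadMove.stay) ∈ rule M a c) a p' → p = p' := by
    intro a ha ha'
    induction ha using Relation.ReflTransGen.head_induction_on with
    | refl =>
      rcases Relation.ReflTransGen.cases_head ha' with h0 | ⟨t, ht, _⟩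
      · exact h0
      · exfalso
        have := rule_det M hM p c hy ht
        simp only [Prod.mk.injEq] at this
        have h2 := this.2
        split_ifs at h2
    | @head a b hab _ ih =>
      rcases Relation.ReflTransGen.cases_head ha' with h0 | ⟨t, ht, hr''⟩
      · exfalso
        subst h0
        have := rule_det M hM _ c hy' hab
        simp only [Prod.mk.injEq] at this
        have h2 := this.2
        split_ifs at h2
      · have := rule_det M hM _ c ht hab
        simp only [Prod.mk.injEq, and_true] at this
        subst this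
        exact ih hr''
  have hpp := key _ hp hp'
  subst hpp
  have h1 := rule_det M hM _ c hy hy'
  simp only [Prod.mk.injEq] at h1
  obtain ⟨h1, h2⟩ := h1
  apply Prod.ext
  · rcases hb : y.1 with _ | _ <;> rcases hb' : y'.1 with _ | _ <;> simp [hb, hb'] at h2 ⊢
  · exact h1

theorem fun_wd (M : TwoWayNFA α σ) (hM : M.IsDeterministic) (w : List α) :
    Fun (wd (letBeh M) w) := by
  induction w with
  | nil => exact fun_one
  | cons a w ih => exact fun_mul (fun_cell M hM _) ih

theorem separates_dfa {h : ℕ} (D : TwoWayNFA (Let h) σ) (hD : D.IsDeterministic)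
    (hL : D.language = liveness h) : Separates (letBeh D) := by
  intro u z X v hX hle hdead hlive
  have heq : wd (letBeh D) X = wd (letBeh D) z := by
    funext x y
    apply propext
    constructor
    · intro hxy
      have hdom : ∃ y', wd (letBeh D) z x y' := by
        have h1 := hxy
        rw [← hX] at h1
        rcases h1 with ⟨hx, h1⟩ | ⟨hx, h1⟩
        · rcases h1 with ⟨_, h2⟩ | ⟨x1, _, h2, _⟩
          · rcases h2 with ⟨_, h3⟩ | ⟨hx', _⟩
            · rcases h3 with ⟨_, h4⟩ | ⟨x2, _, h4, _⟩
              · exact ⟨_, h4⟩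
              · exact ⟨_, h4⟩
            · rw [hx] at hx'; cases hx'
          · rcases h2 with ⟨_, h3⟩ | ⟨hx', _⟩
            · rcases h3 with ⟨_, h4⟩ | ⟨x2, _, h4, _⟩
              · exact ⟨_, h4⟩
              · exact ⟨_, h4⟩
            · rw [hx] at hx'; cases hx'
        · rcases h1 with ⟨_, h2⟩ | ⟨x1, _, h2, _⟩
          · exact ⟨_, h2⟩
          · exact ⟨_, h2⟩
      obtain ⟨y', hy'⟩ := hdom
      have := fun_wd D hD X _ _ _ hxy (hle _ _ hy')
      rw [this]
      exact hy'
    · exact hle x y
  have h1 : D.Accepts (u ++ X ++ v) := by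
    have : u ++ X ++ v ∈ D.language := by rw [hL]; exact hlive
    exact this
  rw [accepts_iff3, heq, ← accepts_iff3] at h1
  have h2 : u ++ z ++ v ∈ D.language := h1
  rw [hL] at h2
  exact hdead h2

/-- bridge for 2NFAs recognising the dead words -/
theorem bridge_nfa {h : ℕ} {σ : Type*} (B : Crest.TwoWay.TwoWayNFA (Let h) σ)
    (hB : B.language = (Crest.TwoWay.liveness h)ᶜ) :
    ∃ c : Let h → Beh (Option σ), Separates c := ⟨letBeh B, separates_nfa B hB⟩

/-- bridge for 2DFAs recognising the live words -/
theorem bridge_dfa {h : ℕ} {σ : Type*} (D : Crest.TwoWay.TwoWayNFA (Let h) σ)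
    (hD : D.IsDeterministic) (hL : D.language = Crest.TwoWay.liveness h) :
    ∃ c : Let h → Beh (Option σ), Separates c := ⟨letBeh D, separates_dfa D hD hL⟩

end Crest.Agent.R294
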