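import Mathlib

/-!
R294: idempotent powers in finite monoids, existence of a good medium `K` (minimal right ideal),
and the final arithmetic.
-/

set_option autoImplicit false

namespace Crest.Agent.R294

/-- every element of a finite monoid has an idempotent positive power. -/
theorem exists_pow_idem {N : Type*} [Monoid N] [Finite N] (x : N) :
    ∃ n, 0 < n ∧ x ^ n * x ^ n = x ^ n := by
  obtain ⟨i, j, hij, hx⟩ : ∃ i j : ℕ, i < j ∧ x ^ i = x ^ j := by
    by_contra hcon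
    push Not at hcon
    have hinj : Function.Injective (fun n : ℕ => x ^ n) := by
      intro a b hab
      rcases lt_trichotomy a b with h | h | h
      · exact absurd hab (hcon a b h)
      · exact h
      · exact absurd hab.symm (hcon b a h)
    exact not_injective_infinite_finite _ hinj
  -- period `d = j - i`
  obtain ⟨d, hd, rfl⟩ : ∃ d, 0 < d ∧ j = i + d := ⟨j - i, by omega, by omega⟩
  have hstep : ∀ m, i ≤ m → x ^ (m + d) = x ^ m := by
    intro m hm
    obtain ⟨k, rfl⟩ := Nat.exists_eq_add_of_le hm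
    have : i + k + d = (i + d) + k := by omega
    rw [this, pow_add, ← hx, ← pow_add]
  have hmul : ∀ t m, i ≤ m → x ^ (m + t * d) = x ^ m := by
    intro t
    induction t with
    | zero => intro m _; simp
    | succ t ih =>
      intro m hm
      have : m + (t + 1) * d = (m + t * d) + d := by ring
      rw [this, hstep _ (by omega), ih m hm]
  refine ⟨(i + 1) * d, Nat.mul_pos (Nat.succ_pos _) hd, ?_⟩
  have hge : i ≤ (i + 1) * d := by nlinarith
  rw [← pow_add]
  exact hmul (i + 1) _ hge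

/-- idempotent powers for a homomorphism into a finite monoid. -/
theorem exists_pow_idem_hom {M N : Type*} [Monoid M] [Monoid N] [Finite N] (φ : M →* N) (z : M) :
    ∃ n, 0 < n ∧ φ (z ^ n) * φ (z ^ n) = φ (z ^ n) := by
  obtain ⟨n, hn, h⟩ := exists_pow_idem (φ z)
  exact ⟨n, hn, by simpa only [map_pow] using h⟩

/-- powers of an element whose image is idempotent. -/
theorem map_pow_idem {M R : Type*} [Monoid M] [Monoid R] (ρ : M →* R) (z : M)
    (h : ρ z * ρ z = ρ z) : ∀ n, 0 < n → ρ (z ^ n) = ρ z := by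
  intro n hn
  induction n with
  | zero => omega
  | succ n ih =>
    rcases Nat.eq_zero_or_pos n with h0 | h0
    · subst h0; simp
    · rw [pow_succ, map_mul, ih h0, h]

/-- **Good medium.**  `K` lies in a minimal right ideal of the set of all `w` with `ρ w = e`. -/
theorem exists_good_hom {M N R : Type*} [Monoid M] [Monoid N] [Finite N] [Monoid R]
    (φ : M →* N) (ρ : M →* R) (e : R) (he : e * e = e) (hex : ∃ m, ρ m = e) :
    ∃ K : M, ρ K = e ∧ φ K * φ K = φ K ∧
      ∀ w, ρ w = e → ∃ w', ρ w' = e ∧ φ K * φ w * φ K * φ w' = φ K := by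
  classical
  let A : M → Set N := fun m => {t | ∃ w, ρ w = e ∧ φ (m * w) = t}
  have hAfin : ∀ m, (A m).Finite := fun m => Set.toFinite _
  have hsub : ∀ m w, ρ w = e → A (m * w) ⊆ A m := by
    rintro m w hw t ⟨v, hv, rfl⟩
    exact ⟨w * v, by rw [map_mul, hw, hv, he], by rw [mul_assoc]⟩
  -- minimise the cardinality of `A m`
  obtain ⟨m0, hm0, hmin⟩ : ∃ m0, ρ m0 = e ∧ ∀ m, ρ m = e → (A m0).ncard ≤ (A m).ncard := by
    have hne : ∃ n, ∃ m, ρ m = e ∧ (A m).ncard = n := by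
      obtain ⟨m, hm⟩ := hex
      exact ⟨_, m, hm, rfl⟩
    obtain ⟨m0, hm0, hc⟩ := Nat.find_spec hne
    refine ⟨m0, hm0, fun m hm => ?_⟩
    rw [hc]
    exact Nat.find_min' hne ⟨m, hm, rfl⟩
  have heq : ∀ w, ρ w = e → A (m0 * w) = A m0 := by
    intro w hw
    exact Set.eq_of_subset_of_ncard_le (hsub m0 w hw)
      (hmin _ (by rw [map_mul, hm0, hw, he])) (hAfin m0)
  obtain ⟨n, hn, hidem⟩ := exists_pow_idem_hom φ m0
  have hKe : ρ (m0 ^ n) = e := by
    rw [map_pow_idem ρ m0 (by rw [hm0, he]) n hn, hm0]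
  have hA : ∀ w, ρ w = e → A (m0 ^ n * w) = A m0 := by
    intro w hw
    obtain ⟨k, rfl⟩ : ∃ k, n = k + 1 := ⟨n - 1, by omega⟩
    rcases Nat.eq_zero_or_pos k with h0 | h0
    · subst h0
      rw [zero_add, pow_one]
      exact heq w hw
    · have : m0 ^ (k + 1) * w = m0 * (m0 ^ k * w) := by rw [pow_succ', mul_assoc]
      rw [this]
      refine heq _ ?_
      rw [map_mul, map_pow_idem ρ m0 (by rw [hm0, he]) k h0, hm0, hw, he]
  refine ⟨m0 ^ n, hKe, hidem, fun w hw => ?_⟩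
  have hmem : φ (m0 ^ n) ∈ A m0 := by
    rw [← hA (m0 ^ n) hKe]
    refine ⟨m0 ^ n, hKe, ?_⟩
    rw [map_mul, map_mul, hidem, hidem]
  rw [← hA (w * m0 ^ n) (by rw [map_mul, hw, hKe, he])] at hmem
  obtain ⟨w', hw', h⟩ := hmem
  refine ⟨w', hw', ?_⟩
  calc φ (m0 ^ n) * φ w * φ (m0 ^ n) * φ w' = φ (m0 ^ n * (w * m0 ^ n) * w') := by
        simp only [map_mul, mul_assoc]
    _ = φ (m0 ^ n) := h

/-- final arithmetic for S0444. -/
theorem arith_S0444 (k s : ℕ) (h : 63 ^ k ≤ 8 ^ k * (2 * (s + 1))) : 2 ^ k ≤ 2 * (s + 1) := by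
  have h1 : 8 ^ k * 2 ^ k ≤ 8 ^ k * (2 * (s + 1)) := by
    calc 8 ^ k * 2 ^ k = 16 ^ k := by rw [← mul_pow]; norm_num
      _ ≤ 63 ^ k := Nat.pow_le_pow_left (by norm_num) k
      _ ≤ _ := h
  exact Nat.le_of_mul_le_mul_left h1 (by positivity)

/-- final arithmetic for S0445. -/
theorem arith_S0445 (k s : ℕ) (h : 15 ^ k ≤ 8 ^ k * (2 * (s + 1))) :
    2 ^ k ≤ 4 * (s + 1) ^ 2 := by
  have h1 : 64 ^ k * 2 ^ k ≤ 64 ^ k * (4 * (s + 1) ^ 2) := by
    calc 64 ^ k * 2 ^ k = 128 ^ k := by rw [← mul_pow]; norm_num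
      _ ≤ 225 ^ k := Nat.pow_le_pow_left (by norm_num) k
      _ = 15 ^ k * 15 ^ k := by rw [← mul_pow]; norm_num
      _ ≤ (8 ^ k * (2 * (s + 1))) * (8 ^ k * (2 * (s + 1))) := Nat.mul_le_mul h h
      _ = (8 ^ k * 8 ^ k) * (4 * (s + 1) ^ 2) := by ring
      _ = 64 ^ k * (4 * (s + 1) ^ 2) := by rw [← mul_pow]; norm_num
  exact Nat.le_of_mul_le_mul_left h1 (by positivity)

end Crest.Agent.R294
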