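import Crest.Agent.R294.Eqns
import Crest.Agent.R294.Good
import Crest.Agent.R294.Beh

/-!
R294: idempotent powers and good media for word behaviours.
-/

set_option autoImplicit false

namespace Crest.Agent.R294

open Crest.TwoWay

namespace GW

/-! ### relations as a monoid -/

theorem wordRel_app {h : ℕ} (u v : List (Let h)) :
    wordRel (u ++ v) = fun a c => ∃ b, wordRel u a b ∧ wordRel v b c := by
  induction u with
  | nil =>
    funext a c
    simp [wordRel]
  | cons R u ih =>
    funext a c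
    simp only [List.cons_append, wordRel, ih]
    apply propext
    constructor
    · rintro ⟨b, hb, b', h1, h2⟩
      exact ⟨b', ⟨b, hb, h1⟩, h2⟩
    · rintro ⟨b', ⟨b, hb, h1⟩, h2⟩
      exact ⟨b, hb, b', h1, h2⟩

theorem wordRel_let {h : ℕ} (R : Fin h → Fin h → Prop) : wordRel [letter R] = R := by
  funext a c
  simp [wordRel, letter]

/-- relations on `Fin h` -/
def RelM (h : ℕ) : Type := Fin h → Fin h → Prop

instance (h : ℕ) : Monoid (RelM h) where
  mul R S := fun a c => ∃ b, R a b ∧ S b c
  one := fun a b => a = b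
  mul_assoc R S T := by
    funext a d
    apply propext
    constructor
    · rintro ⟨c, ⟨b, h1, h2⟩, h3⟩
      exact ⟨b, h1, c, h2, h3⟩
    · rintro ⟨b, h1, c, h2, h3⟩
      exact ⟨c, ⟨b, h1, h2⟩, h3⟩
  one_mul R := by
    funext a b
    apply propext
    constructor
    · rintro ⟨c, h1, h2⟩
      have h1' : a = c := h1
      rw [h1']; exact h2
    · intro h
      exact ⟨a, rfl, h⟩
  mul_one R := by
    funext a b
    apply propext
    constructor
    · rintro ⟨c, h1, h2⟩
      have h2' : c = b := h2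
      rw [← h2']; exact h1
    · intro h
      exact ⟨b, h, rfl⟩

/-- `IdP P` as an element of the relation monoid -/
def idM {h : ℕ} (P : Finset (Fin h)) : RelM h := IdP P

theorem idM_mul_idM {h : ℕ} (P : Finset (Fin h)) : idM P * idM P = idM P := by
  funext a c
  apply propext
  constructor
  · rintro ⟨b, ⟨rfl, h1⟩, ⟨rfl, h2⟩⟩
    exact ⟨rfl, h1⟩
  · rintro ⟨rfl, h1⟩
    exact ⟨a, ⟨rfl, h1⟩, ⟨rfl, h1⟩⟩

/-- `wordRel` as a homomorphism -/
def rhoHom (h : ℕ) : FreeMonoid (Let h) →* RelM h where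
  toFun w := wordRel (FreeMonoid.toList w)
  map_one' := rfl
  map_mul' u v := wordRel_app (FreeMonoid.toList u) (FreeMonoid.toList v)

theorem toList_pow {α : Type*} (w : FreeMonoid α) (n : ℕ) :
    FreeMonoid.toList (w ^ n) = (List.replicate n (FreeMonoid.toList w)).flatten := by
  induction n with
  | zero => rfl
  | succ n ih =>
    rw [pow_succ', FreeMonoid.toList_mul, ih, List.replicate_succ, List.flatten_cons]

end GW

open GW

/-- powers of a word: idempotent behaviour -/
theorem exists_idem_pow {Q : Type*} [Finite Q] {α : Type*} (c : α → Beh Q) (w : List α) :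
    ∃ n, 1 ≤ n ∧ Idem (wd c (List.replicate n w).flatten) := by
  obtain ⟨n, hn, h⟩ := exists_pow_idem_hom (wdHom c) (FreeMonoid.ofList w)
  refine ⟨n, hn, ?_⟩
  have h2 : wdHom c (FreeMonoid.ofList w ^ n) = wd c (List.replicate n w).flatten := by
    rw [wdHom_apply, toList_pow]; rfl
  rw [h2] at h
  exact h

theorem GW.wordRel_rep {h : ℕ} (P : Finset (Fin h)) (w : List (Let h))
    (hw : wordRel w = IdP P) (n : ℕ) (hn : 1 ≤ n) :
    wordRel (List.replicate n w).flatten = IdP P := by
  have h1 := map_pow_idem (rhoHom h) (FreeMonoid.ofList w)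
    (by
      have : rhoHom h (FreeMonoid.ofList w) = idM P := hw
      rw [this, idM_mul_idM]) n hn
  have h2 : rhoHom h (FreeMonoid.ofList w ^ n) = wordRel (List.replicate n w).flatten := by
    show wordRel (FreeMonoid.toList (FreeMonoid.ofList w ^ n)) = _
    rw [toList_pow]; rfl
  rw [← h2, h1]
  exact hw

/-- an idempotent word over `IdP P` -/
theorem exists_idem_word {Q : Type*} [Finite Q] {h : ℕ} (c : Let h → Beh Q)
    (P : Finset (Fin h)) : ∃ z : List (Let h), wordRel z = IdP P ∧ Idem (wd c z) := by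
  obtain ⟨n, hn, hI⟩ := exists_idem_pow c [letter (IdP P)]
  exact ⟨_, wordRel_rep P _ (wordRel_let _) n hn, hI⟩

/-- good media (minimal right ideal) -/
theorem exists_good {Q : Type*} [Finite Q] {h : ℕ} (c : Let h → Beh Q) (P : Finset (Fin h)) :
    ∃ K : List (Let h), Crest.TwoWay.wordRel K = IdP P ∧ Idem (wd c K) ∧
      ∀ w : List (Let h), Crest.TwoWay.wordRel w = IdP P →
        ∃ w' : List (Let h), Crest.TwoWay.wordRel w' = IdP P ∧
          wd c K ⊙ wd c w ⊙ wd c K ⊙ wd c w' ⊙ wd c K = wd c K := by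
  obtain ⟨K, hK, hI, hw⟩ := exists_good_hom (wdHom c) (rhoHom h) (idM P)
    (idM_mul_idM P) ⟨FreeMonoid.ofList [letter (IdP P)], wordRel_let _⟩
  refine ⟨FreeMonoid.toList K, hK, hI, fun w hwP => ?_⟩
  obtain ⟨w', hw', h⟩ := hw (FreeMonoid.ofList w) hwP
  refine ⟨FreeMonoid.toList w', hw', ?_⟩
  have h' : (wd c (FreeMonoid.toList K) ⊙ wd c w ⊙ wd c (FreeMonoid.toList K) ⊙
      wd c (FreeMonoid.toList w')) = wd c (FreeMonoid.toList K) := h
  rw [h']
  exact hI

end Crest.Agent.R294
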