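import Crest.Agent.R294.Beh

/-!
Row 294.  Idempotent behaviours: transitivity, recurrent interpolation, crossing factorisation,
invariance of `Kept`, and the DROP lemma.
-/

set_option autoImplicit false

namespace Crest.Agent.R294

variable {Q : Type*}

open Relation

/-! ### general facts on `Mid` -/

theorem Mid.extend_left {p q r : Beh Q} {x y : DS Q} (hy : y.1 = true) (h : Mid q r x y) :
    Mid (p ⊙ q) r x y := by
  rw [mid_mul_left]; exact Or.inl ⟨hy, h⟩

theorem Mid.extend_right {p q r : Beh Q} {x y : DS Q} (hy : y.1 = false) (h : Mid p q x y) :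
    Mid p (q ⊙ r) x y := by
  rw [mid_mul_right]; exact Or.inl ⟨hy, h⟩

theorem Mid_of_cross {p q : Beh Q} {x y : DS Q} (hx : x.1 = true) (hy : y.1 = true) (h : q x y) :
    Mid p q x y := ⟨x, ReflTransGen.refl, by rw [hx, hy], by simpa [sel, hx] using h⟩

/-- last crossing decomposition -/
theorem Mid_right {p q : Beh Q} {x y : DS Q} (hy : y.1 = true) :
    Mid p q x y ↔ ∃ x', ReflTransGen (Refl p q) x x' ∧ x'.1 = true ∧ q x' y := by
  constructor
  · rintro ⟨x', h1, h2, h3⟩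
    rw [hy] at h2
    exact ⟨x', h1, h2, by simpa [sel, h2] using h3⟩
  · rintro ⟨x', h1, h2, h3⟩
    exact ⟨x', h1, by rw [h2, hy], by simpa [sel, h2] using h3⟩

theorem mul_tt {p q : Beh Q} {x y : DS Q} (hx : x.1 = true) (hy : y.1 = true) :
    (p ⊙ q) x y ↔ ∃ x1 : DS Q, x1.1 = true ∧ p x x1 ∧ Mid p q x1 y := by
  simp [mul, hx, hy]

theorem mid_mul_right_t {p q r : Beh Q} {x y : DS Q} (hy : y.1 = true) : Mid p (q ⊙ r) x y ↔
    ∃ x1 : DS Q, x1.1 = true ∧ Mid p q x x1 ∧ Mid (p ⊙ q) r x1 y := by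
  rw [mid_mul_right]; simp [hy]

/-! ### a finite idempotent relation passes through recurrent points -/

theorem exists_recurrent {A : Type*} [Finite A] (R : A → A → Prop)
    (tr : ∀ x y z, R x y → R y z → R x z) (ip : ∀ x y, R x y → ∃ c, R x c ∧ R c y)
    {x y : A} (h : R x y) : ∃ c, R x c ∧ R c c ∧ R c y := by
  classical
  by_contra hcon
  push Not at hcon
  let S := {c : A // R x c ∧ R c y}
  have wf : WellFounded (fun a b : S => R a.1 b.1) := by
    have : IsTrans S (fun a b : S => R a.1 b.1) := ⟨fun a b c h1 h2 => tr _ _ _ h1 h2⟩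
    have : Std.Irrefl (fun a b : S => R a.1 b.1) := ⟨fun a h1 => hcon a.1 a.2.1 h1 a.2.2⟩
    exact Finite.wellFounded_of_trans_of_irrefl _
  obtain ⟨c, h1, h2⟩ := ip x y h
  obtain ⟨m, -, hm⟩ := wf.has_min (Set.univ : Set S) ⟨⟨c, h1, h2⟩, trivial⟩
  obtain ⟨d, h3, h4⟩ := ip x m.1 m.2.1
  exact hm ⟨d, h3, tr _ _ _ h4 m.2.2⟩ trivial h4

/-! ### mirror images -/

@[simp] theorem flip_flip' (x : DS Q) : flip (flip x) = x := by
  rcases x with ⟨d, q⟩; simp [flip]

@[simp] theorem flip_fst' (x : DS Q) : (flip x).1 = !x.1 := rfl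

theorem Mid_of_rev {p q : Beh Q} {x y : DS Q} (h : Mid (rev q) (rev p) (flip x) (flip y)) :
    Mid p q x y := by
  rw [Mid_rev] at h; simpa using h

theorem Mid_to_rev {p q : Beh Q} {x y : DS Q} (h : Mid p q x y) :
    Mid (rev q) (rev p) (flip x) (flip y) := by
  rw [Mid_rev]; simpa using h

theorem Idem.rev' {g : Beh Q} (hg : Idem g) : Idem (rev g) := by
  have : rev (g ⊙ g) = rev g := congrArg rev hg
  rw [rev_mul] at this; exact this

/-! ### idempotents -/

section idem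

variable {g f : Beh Q}

/-- generalised transitivity -/
theorem Mid.comb_right {g U V : Beh Q} (hU : U ⊙ g = U) (hV : g ⊙ V = V) {x y w : DS Q}
    (hy : y.1 = true) (h1 : Mid g g x y) (h2 : Mid U V y w) : Mid U V x w := by
  have h3 : Mid U g x y := by
    have := Mid.extend_left (p := U) hy h1
    rwa [hU] at this
  have : Mid U (g ⊙ V) x w := by
    rw [mid_mul_right]
    exact Or.inr ⟨y, hy, h3, by rw [hU]; exact h2⟩
  rwa [hV] at this

theorem Mid.comb {g U V : Beh Q} (hU : U ⊙ g = U) (hV : g ⊙ V = V) {x y w : DS Q}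
    (h1 : Mid g g x y) (h2 : Mid U V y w) : Mid U V x w := by
  cases hy : y.1 with
  | true => exact Mid.comb_right hU hV hy h1 h2
  | false =>
    apply Mid_of_rev
    exact Mid.comb_right (g := rev g) (y := flip y) (by rw [← rev_mul, hV])
      (by rw [← rev_mul, hU]) (by simp [hy]) (Mid_to_rev h1) (Mid_to_rev h2)

theorem E_trans (hg : Idem g) {x y z : DS Q} (h1 : Mid g g x y) (h2 : Mid g g y z) :
    Mid g g x z := Mid.comb hg hg h1 h2

theorem E_dense_right (hg : Idem g) {x w : DS Q} (hw : w.1 = true) (h : Mid g g x w) :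
    ∃ c : DS Q, c.1 = true ∧ Mid g g x c ∧ Mid g g c w := by
  have hg' : g ⊙ g = g := hg
  have : Mid g (g ⊙ g) x w := by rwa [hg']
  rw [mid_mul_right_t hw] at this
  obtain ⟨c, h1, h2, h3⟩ := this
  exact ⟨c, h1, h2, by rwa [hg'] at h3⟩

theorem E_rec_right [Finite Q] (hg : Idem g) {x w : DS Q} (hw : w.1 = true)
    (h : Mid g g x w) : ∃ c : DS Q, c.1 = true ∧ Mid g g x c ∧ Mid g g c c ∧ Mid g g c w := by
  obtain ⟨x1, h1, h2, h3⟩ := E_dense_right hg hw h
  let A := {c : DS Q // c.1 = true}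
  obtain ⟨c, h4, h5, h6⟩ := exists_recurrent (A := A) (fun a b => Mid g g a.1 b.1)
    (fun a b c h1 h2 => E_trans hg h1 h2)
    (fun a b h => by
      obtain ⟨c, h1, h2, h3⟩ := E_dense_right hg b.2 h
      exact ⟨⟨c, h1⟩, h2, h3⟩) (x := ⟨x1, h1⟩) (y := ⟨w, hw⟩) h3
  exact ⟨c.1, c.2, E_trans hg h2 h4, h5, h6⟩

/-- a crossing of `g` to the right factors through a recurrent right-mover -/
theorem cross_right [Finite Q] (hg : Idem g) {q w : DS Q} (hq : q.1 = true)
    (hw : w.1 = true) (h : g q w) :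
    ∃ c : DS Q, c.1 = true ∧ g q c ∧ Mid g g c c ∧ Mid g g c w := by
  have hg' : g ⊙ g = g := hg
  have h' : (g ⊙ g) q w := by rwa [hg']
  rw [mul_tt hq hw] at h'
  obtain ⟨x1, h1, h2, h3⟩ := h'
  obtain ⟨c, h4, h5, h6, h7⟩ := E_rec_right hg hw h3
  refine ⟨c, h4, ?_, h6, h7⟩
  have : (g ⊙ g) q c := by rw [mul_tt hq h4]; exact ⟨x1, h1, h2, h5⟩
  rwa [hg'] at this

/-- a crossing of an idempotent factors through a recurrent state -/
theorem cross [Finite Q] {g : Beh Q} (hg : Idem g) {x y : DS Q} (h : g x y) (hxy : x.1 = y.1) :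
    ∃ e, e.1 = x.1 ∧ Rec g e ∧ g x e ∧ Mid g g e y := by
  cases hx : x.1 with
  | true =>
    obtain ⟨c, h1, h2, h3, h4⟩ := cross_right hg hx (hxy ▸ hx) h
    exact ⟨c, h1, h3, h2, h4⟩
  | false =>
    have hy : y.1 = false := by rw [← hxy, hx]
    obtain ⟨c, h1, h2, h3, h4⟩ := cross_right (g := rev g) (q := flip x) (w := flip y)
      hg.rev' (by simp [hx]) (by simp [hy]) (by simpa [rev] using h)
    refine ⟨flip c, by simp [h1], ?_, by simpa [rev] using h2, ?_⟩
    · show Mid g g (flip c) (flip c)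
      rwa [Mid_rev] at h3
    · rw [Mid_rev] at h4; simpa using h4

/-- `f = g f g` gives `g f = f` and `f g = f`. -/
theorem gf_of (hg : Idem g) (hf : g ⊙ f ⊙ g = f) : g ⊙ f = f ∧ f ⊙ g = f := by
  have hg' : g ⊙ g = g := hg
  constructor
  · conv_lhs => rw [← hf]
    rw [← mul_assoc', ← mul_assoc', hg', hf]
  · conv_lhs => rw [← hf]
    rw [mul_assoc', hg', hf]

end idem

section absorb

variable {g f : Beh Q}

theorem Mid_fg_of_E (hfg : f ⊙ g = f) {x y : DS Q} (hy : y.1 = true) (h : Mid g g x y) :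
    Mid f g x y := by
  have := Mid.extend_left (p := f) hy h
  rwa [hfg] at this

theorem Mid_ff_of_gf (hfg : f ⊙ g = f) {x y : DS Q} (hy : y.1 = true) (h : Mid g f x y) :
    Mid f f x y := by
  have := Mid.extend_left (p := f) hy h
  rwa [hfg] at this

theorem E_gf (hg : Idem g) (hgf : g ⊙ f = f) {x x1 y : DS Q}
    (h : Mid g g x x1) (h2 : Mid g f x1 y) : Mid g f x y := Mid.comb hg hgf h h2

theorem gf_E (hgf : g ⊙ f = f) (hfg : f ⊙ g = f) {x x1 y : DS Q}
    (h1 : x1.1 = true) (hy : y.1 = true)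
    (h : Mid g f x x1) (h2 : Mid g g x1 y) : Mid g f x y := by
  have : Mid g (f ⊙ g) x y := by
    rw [mid_mul_right]; exact Or.inr ⟨x1, h1, h, by rw [hgf]; exact Mid_fg_of_E hfg hy h2⟩
  rwa [hfg] at this

theorem fg_ff (hgf : g ⊙ f = f) (hfg : f ⊙ g = f) {x x1 y : DS Q}
    (h1 : x1.1 = true) (h : Mid f g x x1) (h2 : Mid f f x1 y) : Mid f f x y := by
  have : Mid f (g ⊙ f) x y := by
    rw [mid_mul_right]; exact Or.inr ⟨x1, h1, h, by rw [hfg]; exact h2⟩
  rwa [hgf] at this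

theorem E_ff (hgf : g ⊙ f = f) (hfg : f ⊙ g = f) {x x1 y : DS Q}
    (h : Mid g g x x1) (h2 : Mid f f x1 y) : Mid f f x y := Mid.comb hfg hgf h h2

theorem ff_fg (hf : Idem f) (hfg : f ⊙ g = f) {x x1 y : DS Q}
    (h1 : x1.1 = true) (h : Mid f f x x1) (h2 : Mid f g x1 y) : Mid f f x y := by
  have hf' : f ⊙ f = f := hf
  have : Mid f (f ⊙ g) x y := by
    rw [mid_mul_right]; exact Or.inr ⟨x1, h1, h, by rw [hf']; exact h2⟩
  rwa [hfg] at this

theorem ff_E (hf : Idem f) (hfg : f ⊙ g = f) {x x1 y : DS Q}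
    (h1 : x1.1 = true) (hy : y.1 = true) (h : Mid f f x x1) (h2 : Mid g g x1 y) : Mid f f x y :=
  ff_fg hf hfg h1 h (Mid_fg_of_E hfg hy h2)

/-- every recurrent right-mover of `f` is `f`-equivalent to a recurrent right-mover of `g` -/
theorem exists_grec [Finite Q] (hg : Idem g) (hf : Idem f) (hgf : g ⊙ f = f)
    (hfg : f ⊙ g = f) {u : DS Q} (hu : u.1 = true) (h : Mid f f u u) :
    ∃ c : DS Q, c.1 = true ∧ Mid g g c c ∧ Mid f f u c ∧ Mid f f c u := by
  have h' : Mid f (g ⊙ f) u u := by rwa [hgf]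
  rw [mid_mul_right_t hu] at h'
  obtain ⟨x1, h1, h2, h3⟩ := h'
  rw [hfg] at h3
  rw [Mid_right h1] at h2
  obtain ⟨x', h4, h5, h6⟩ := h2
  obtain ⟨c, h7, h8, h9, h10⟩ := cross_right hg h5 h1 h6
  refine ⟨c, h7, h9, ?_, ?_⟩
  · exact ff_fg hf hfg hu h ((Mid_right h7).2 ⟨x', h4, h5, h8⟩)
  · exact E_ff hgf hfg h10 h3

/-- `a` (a state) is attached to (the `f`-class of) `u`. -/
def Att (f : Beh Q) (u a : DS Q) : Prop := Mid f f a u ∧ ∀ w, w.1 = true → Mid f f a w → Mid f f u w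

/-- last use of the left block: an attached recurrent state -/
theorem exists_second [Finite Q] (hg : Idem g) (hgf : g ⊙ f = f)
    (hfg : f ⊙ g = f) {c : DS Q} (hc : c.1 = true) (h : Mid f f c c) :
    ∃ e : DS Q, e.1 = true ∧ Mid g g e e ∧ Mid g f e c ∧ Att f c e := by
  have h' : Mid f (g ⊙ f) c c := by rwa [hgf]
  rw [Mid_right hc] at h'
  obtain ⟨a0, h1, h2, h3⟩ := h'
  rw [mul_tt h2 hc] at h3
  obtain ⟨x1, h4, h5, h6⟩ := h3
  obtain ⟨e, h7, h8, h9, h10⟩ := cross_right hg h2 h4 h5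
  have hec : Mid g f e c := E_gf hg hgf h10 h6
  refine ⟨e, h7, h9, hec, Mid_ff_of_gf hfg hc hec, ?_⟩
  intro w hw h11
  have : Mid f (g ⊙ f) c w := by
    apply Mid.trans_refl h1
    rw [mid_mul_right_t hw]
    exact ⟨e, h7, Mid_of_cross h2 h7 h8, by rwa [hfg]⟩
  rwa [hgf] at this

end absorb

/-! ### kept, lost, classes -/

theorem Kept_right {g f : Beh Q} {x : DS Q} (hx : x.1 = true) : Kept g f x ↔ Mid g f x x := by
  simp [Kept, hx]

theorem Kept_left {g f : Beh Q} {x : DS Q} (hx : x.1 = false) : Kept g f x ↔ Mid f g x x := by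
  simp [Kept, hx]

theorem Kept_rev {g f : Beh Q} {x : DS Q} : Kept (rev g) (rev f) x ↔ Kept g f (flip x) := by
  rcases x with ⟨d, x⟩
  cases d <;> simp [Kept, Mid_rev, flip]

theorem Lost_rev {g f : Beh Q} {x : DS Q} : x ∈ Lost (rev g) (rev f) ↔ flip x ∈ Lost g f := by
  simp [Lost, Kept_rev, Mid_rev, Rec]

theorem tcls_rev (g : Beh Q) (x : DS Q) : tcls (rev g) x = flip ⁻¹' (tcls g (flip x)) := by
  ext y
  simp [tcls, Mid_rev]

theorem tcls_eq {g : Beh Q} (hg : Idem g) {x y : DS Q} (hd : y.1 = x.1)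
    (h1 : Mid g g x y) (h2 : Mid g g y x) : tcls g x = tcls g y := by
  ext z
  simp only [tcls, Set.mem_ofPred_eq]
  constructor
  · rintro ⟨h3, h4, h5⟩
    exact ⟨h3.trans hd.symm, E_trans hg h2 h4, E_trans hg h5 h1⟩
  · rintro ⟨h3, h4, h5⟩
    exact ⟨h3.trans hd, E_trans hg h1 h4, E_trans hg h5 h2⟩

theorem of_tcls_eq {g : Beh Q} {x y : DS Q} (hx : Mid g g x x)
    (h : tcls g x = tcls g y) : x.1 = y.1 ∧ Mid g g x y ∧ Mid g g y x := by
  have : x ∈ tcls g y := by rw [← h]; exact ⟨rfl, hx, hx⟩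
  exact ⟨this.1, this.2.2, this.2.1⟩

theorem mcls_eq {g : Beh Q} (hg : Idem g) {x y : DS Q}
    (h1 : Mid g g x y) (h2 : Mid g g y x) : mcls g x = mcls g y := by
  ext z
  simp only [mcls, Set.mem_ofPred_eq]
  constructor
  · rintro ⟨h4, h5⟩
    exact ⟨E_trans hg h2 h4, E_trans hg h5 h1⟩
  · rintro ⟨h4, h5⟩
    exact ⟨E_trans hg h1 h4, E_trans hg h5 h2⟩

theorem of_mcls_eq {g : Beh Q} {x y : DS Q} (hx : Mid g g x x)
    (h : mcls g x = mcls g y) : Mid g g x y ∧ Mid g g y x := by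
  have : x ∈ mcls g y := by rw [← h]; exact ⟨hx, hx⟩
  exact ⟨this.2, this.1⟩

theorem kept_class_right {g f : Beh Q} (hg : Idem g) (hgf : g ⊙ f = f)
    (hfg : f ⊙ g = f) {x y : DS Q} (hx : x.1 = true) (hy : y.1 = true) (h1 : Mid g g x y)
    (h2 : Mid g g y x) (h : Kept g f x) : Kept g f y := by
  rw [Kept_right hx] at h
  rw [Kept_right hy]
  exact E_gf hg hgf h2 (gf_E hgf hfg hx hy h h1)

theorem rev_mul3 {g f : Beh Q} (hf : g ⊙ f ⊙ g = f) : rev g ⊙ rev f ⊙ rev g = rev f := by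
  rw [mul_assoc', ← rev_mul, ← rev_mul, hf]

theorem kept_class {g f : Beh Q} (hg : Idem g) (hf : g ⊙ f ⊙ g = f) {x y : DS Q}
    (hy : y ∈ tcls g x) (hx : Kept g f x) : Kept g f y := by
  obtain ⟨h1, h2, h3⟩ := hy
  obtain ⟨hgf, hfg⟩ := gf_of hg hf
  cases hd : x.1 with
  | true => exact kept_class_right hg hgf hfg hd (h1.trans hd) h2 h3 hx
  | false =>
    have := kept_class_right (g := rev g) (f := rev f) (x := flip x) (y := flip y) hg.rev'
      (by rw [← rev_mul, hfg]) (by rw [← rev_mul, hgf]) (by simp [hd]) (by simp [h1, hd])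
      (Mid_to_rev h2) (Mid_to_rev h3) (Kept_rev.2 (by simpa using hx))
    rw [Kept_rev] at this
    simpa using this

theorem kept_mul_right {K p q : Beh Q} (hKp : K ⊙ p = p) (hpK : p ⊙ K = p)
    {x : DS Q} (hx : x.1 = true) (h : Kept K p x) (h' : Kept K q x) : Kept K (p ⊙ q) x := by
  rw [Kept_right hx] at *
  rw [mid_mul_right_t hx]
  refine ⟨x, hx, h, ?_⟩
  rw [hKp]
  have := Mid.extend_left (p := p) hx h'
  rwa [hpK] at this

theorem kept_mul {K p q : Beh Q} (hp : K ⊙ p ⊙ K = p) (hq : K ⊙ q ⊙ K = q) (hK : Idem K)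
    {x : DS Q} (h1 : Kept K p x) (h2 : Kept K q x) : Kept K (p ⊙ q) x := by
  obtain ⟨hKp, hpK⟩ := gf_of hK hp
  obtain ⟨hKq, hqK⟩ := gf_of hK hq
  cases hd : x.1 with
  | true => exact kept_mul_right hKp hpK hd h1 h2
  | false =>
    have := kept_mul_right (K := rev K) (p := rev q) (q := rev p) (x := flip x)
      (by rw [← rev_mul, hqK]) (by rw [← rev_mul, hKq]) (by simp [hd])
      (Kept_rev.2 (by simpa using h2)) (Kept_rev.2 (by simpa using h1))
    rw [← rev_mul, Kept_rev] at this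
    simpa using this

theorem kept_of_kept {K g f : Beh Q} (hK : Idem K) (hg : K ⊙ g ⊙ K = g)
    (hf : g ⊙ f ⊙ g = f) {x : DS Q}
    (hx : Kept K f x) : Kept g f x := by
  obtain ⟨hKg, hgK⟩ := gf_of hK hg
  cases hd : x.1 with
  | true =>
    rw [Kept_right hd] at *
    have := Mid.extend_left (p := g) hd hx
    rwa [hgK] at this
  | false =>
    rw [Kept_left hd] at *
    have := Mid.extend_right (r := g) hd hx
    rwa [hKg] at this

/-! ### counting -/

theorem count_abs {α β : Type*} (F : Finset α) (G L : Finset β) (hL : L ⊆ G)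
    (att : α → β → Prop)
    (disj : ∀ a ∈ F, ∀ a' ∈ F, ∀ c, att a c → att a' c → a = a')
    (H : ∀ a ∈ F, (∃ c ∈ G, c ∉ L ∧ att a c) ∨
      (∃ c ∈ L, ∃ c' ∈ L, c ≠ c' ∧ att a c ∧ att a c')) :
    2 * F.card + L.card ≤ 2 * G.card := by
  classical
  let w : β → ℕ := fun c => if c ∈ L then 1 else 2
  let S : α → Finset β := fun a => G.filter (att a)
  have h1 : ∀ a ∈ F, 2 ≤ ∑ c ∈ S a, w c := by
    intro a ha
    rcases H a ha with ⟨c, hc, hcL, hac⟩ | ⟨c, hc, c', hc', hne, hac, hac'⟩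
    · have : c ∈ S a := Finset.mem_filter.2 ⟨hc, hac⟩
      calc 2 = w c := by simp [w, hcL]
        _ ≤ _ := Finset.single_le_sum (f := w) (fun i _ => Nat.zero_le _) this
    · have hsub : ({c, c'} : Finset β) ⊆ S a := by
        intro d hd
        simp only [Finset.mem_insert, Finset.mem_singleton] at hd
        rcases hd with rfl | rfl
        · exact Finset.mem_filter.2 ⟨hL hc, hac⟩
        · exact Finset.mem_filter.2 ⟨hL hc', hac'⟩
      calc 2 = ∑ d ∈ ({c, c'} : Finset β), w d := by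
            rw [Finset.sum_pair hne]; simp [w, hc, hc']
        _ ≤ _ := Finset.sum_le_sum_of_subset hsub
  have h2 : ∑ a ∈ F, ∑ c ∈ S a, w c = ∑ c ∈ F.biUnion S, w c := by
    rw [Finset.sum_biUnion]
    intro a ha a' ha' hne
    rw [Function.onFun, Finset.disjoint_left]
    intro c hc hc'
    exact hne (disj a ha a' ha' c (Finset.mem_filter.1 hc).2 (Finset.mem_filter.1 hc').2)
  have h3 : ∑ c ∈ F.biUnion S, w c ≤ ∑ c ∈ G, w c := by
    apply Finset.sum_le_sum_of_subset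
    intro c hc
    obtain ⟨a, -, h⟩ := Finset.mem_biUnion.1 hc
    exact (Finset.mem_filter.1 h).1
  have h4 : ∑ c ∈ G, w c + L.card = 2 * G.card := by
    have : L.card = ∑ c ∈ G, (if c ∈ L then 1 else 0) := by
      rw [Finset.sum_ite_mem, Finset.inter_eq_right.2 hL]; simp
    rw [this, ← Finset.sum_add_distrib]
    rw [Finset.sum_congr rfl (g := fun _ => 2)]
    · simp [mul_comm]
    · intro c _
      by_cases h : c ∈ L <;> simp [w, h]
  have h5 : 2 * F.card ≤ ∑ a ∈ F, ∑ c ∈ S a, w c := by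
    calc 2 * F.card = ∑ _a ∈ F, 2 := by simp [mul_comm]
      _ ≤ _ := Finset.sum_le_sum h1
  omega

theorem count_abs_set {α β : Type*} (F : Set α) (G L : Set β) (hF : F.Finite) (hG : G.Finite)
    (hL : L ⊆ G) (att : α → β → Prop)
    (disj : ∀ a ∈ F, ∀ a' ∈ F, ∀ c, att a c → att a' c → a = a')
    (H : ∀ a ∈ F, (∃ c ∈ G, c ∉ L ∧ att a c) ∨
      (∃ c ∈ L, ∃ c' ∈ L, c ≠ c' ∧ att a c ∧ att a c')) :
    2 * F.ncard + L.ncard ≤ 2 * G.ncard := by
  classical
  have hLf := hG.subset hL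
  rw [Set.ncard_eq_toFinset_card _ hF, Set.ncard_eq_toFinset_card _ hG,
    Set.ncard_eq_toFinset_card _ hLf]
  apply count_abs _ _ _ _ att
  · intro a ha a' ha' c
    exact disj a (by simpa using ha) a' (by simpa using ha') c
  · intro a ha
    rcases H a (by simpa using ha) with ⟨c, hc, h⟩ | ⟨c, hc, c', hc', h⟩
    · exact Or.inl ⟨c, by simpa using hc, by simpa using h⟩
    · exact Or.inr ⟨c, by simpa using hc, c', by simpa using hc', h⟩
  · intro c hc
    simp only [Set.Finite.mem_toFinset] at hc ⊢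
    exact hL hc

/-- DROP for right-movers -/
theorem drop_right [Finite Q] {g f : Beh Q} (hg : Idem g) (hf : Idem f)
    (hgfg : g ⊙ f ⊙ g = f) (T0 : Set (DS Q))
    (hT : ∀ x ∈ T0, x.1 = true → Kept g f x) :
    2 * (tcls f '' {x | x.1 = true ∧ Rec f x ∧ Disjoint (tcls f x) T0}).ncard +
      (tcls g '' {x | x.1 = true ∧ x ∈ Lost g f}).ncard ≤
    2 * (tcls g '' {x | x.1 = true ∧ Rec g x ∧ Disjoint (tcls g x) T0}).ncard := by
  classical
  obtain ⟨hgf, hfg⟩ := gf_of hg hgfg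
  apply count_abs_set _ _ _ (Set.toFinite _) (Set.toFinite _) _
    (fun C D => ∃ u a, u.1 = true ∧ a.1 = true ∧ Mid f f u u ∧ Mid g g a a ∧
      C = tcls f u ∧ D = tcls g a ∧ Att f u a)
  · -- disjointness
    rintro _ ⟨u, ⟨hu, hu2, -⟩, rfl⟩ _ ⟨u', ⟨hu', hu2', -⟩, rfl⟩ D
      ⟨v, a, hv, ha, hvv, haa, h1, h2, h3⟩ ⟨v', a', hv', ha', hvv', haa', h1', h2', h3'⟩
    rw [h1, h1']
    obtain ⟨-, e1, e2⟩ := of_tcls_eq haa (h2.symm.trans h2')
    apply tcls_eq hf (by rw [hv, hv'])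
    · exact h3.2 v' hv' (E_ff hgf hfg e1 h3'.1)
    · exact h3'.2 v hv (E_ff hgf hfg e2 h3.1)
  · -- main
    rintro _ ⟨u, ⟨hu, huu, hdis⟩, rfl⟩
    obtain ⟨c, hc, hcc, huc, hcu⟩ := exists_grec hg hf hgf hfg hu huu
    have hcc' : Mid f f c c := E_trans hf hcu huc
    have huc' : tcls f u = tcls f c := tcls_eq hf (by rw [hu, hc]) huc hcu
    -- the `g`-class of a member of the `f`-class is contained in the `f`-class
    have key : ∀ e : DS Q, e.1 = true → Mid f f e c → Mid f f c e → tcls g e ⊆ tcls f u := by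
      intro e he h1 h2 x hx
      obtain ⟨hx1, hx2, hx3⟩ := hx
      have hx1' : x.1 = true := hx1.trans he
      rw [huc']
      refine ⟨by rw [hx1', hc], ?_, ?_⟩
      · exact ff_E hf hfg he hx1' h2 hx2
      · exact E_ff hgf hfg hx3 h1
    -- members of the f-class are attached
    have att : ∀ e : DS Q, Mid f f e c → Mid f f c e → Att f c e :=
      fun e h1 h2 => ⟨h1, fun w hw h3 => E_trans hf h2 h3⟩
    -- a kept member suffices
    have kmem : ∀ e : DS Q, e.1 = true → Mid g g e e → Mid f f e c → Mid f f c e →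
        Kept g f e → ∃ D ∈ tcls g '' {x | x.1 = true ∧ Rec g x ∧ Disjoint (tcls g x) T0},
          D ∉ tcls g '' {x | x.1 = true ∧ x ∈ Lost g f} ∧
          ∃ u_1 a, u_1.1 = true ∧ a.1 = true ∧ Mid f f u_1 u_1 ∧ Mid g g a a ∧
            tcls f u = tcls f u_1 ∧ D = tcls g a ∧ Att f u_1 a := by
      intro e he hee h1 h2 hk
      refine ⟨tcls g e, ⟨e, ⟨he, hee, ?_⟩, rfl⟩, ?_, c, e, hc, he, hcc', hee, huc', rfl, att e h1 h2⟩
      · exact Set.disjoint_of_subset_left (key e he h1 h2) hdis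
      · rintro ⟨x, ⟨hx, hxl⟩, hxe⟩
        obtain ⟨-, e1, e2⟩ := of_tcls_eq hee hxe.symm
        exact hxl.2 (kept_class_right hg hgf hfg he hx e1 e2 hk)
    by_cases hk : Kept g f c
    · exact Or.inl (kmem c hc hcc hcc' hcc' hk)
    obtain ⟨e, he, hee, hec, hatt⟩ := exists_second hg hgf hfg hc hcc'
    by_cases hk' : Kept g f e
    · have hee' : Mid f f e e := Mid_ff_of_gf hfg he ((Kept_right he).1 hk')
      have h1 : Mid f f c e := hatt.2 e he hee'
      exact Or.inl (kmem e he hee hatt.1 h1 hk')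
    · right
      refine ⟨tcls g c, ⟨c, ⟨hc, hcc, hk⟩, rfl⟩, tcls g e, ⟨e, ⟨he, hee, hk'⟩, rfl⟩, ?_,
        ⟨c, c, hc, hc, hcc', hcc, huc', rfl, att c hcc' hcc'⟩,
        ⟨c, e, hc, he, hcc', hee, huc', rfl, hatt⟩⟩
      intro h
      obtain ⟨-, e1, e2⟩ := of_tcls_eq hcc h
      exact hk ((Kept_right hc).2 (E_gf hg hgf e1 hec))
  · -- lost classes are disjoint from T0
    rintro _ ⟨x, ⟨hx, hxx, hxk⟩, rfl⟩
    refine ⟨x, ⟨hx, hxx, ?_⟩, rfl⟩
    rw [Set.disjoint_left]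
    rintro y ⟨hy1, hy2, hy3⟩ hyT
    exact hxk (kept_class_right hg hgf hfg (hy1.trans hx) hx hy3 hy2 (hT y hyT (hy1.trans hx)))

theorem image_tcls_rev (g : Beh Q) (S : Set (DS Q)) :
    tcls (rev g) '' S = (fun C => flip ⁻¹' C) '' (tcls g '' (flip ⁻¹' S)) := by
  ext C
  constructor
  · rintro ⟨x, hx, rfl⟩
    exact ⟨tcls g (flip x), ⟨flip x, by simpa using hx, rfl⟩, (tcls_rev g x).symm⟩
  · rintro ⟨_, ⟨x, hx, rfl⟩, rfl⟩
    exact ⟨flip x, hx, by simp [tcls_rev]⟩

theorem ncard_image_tcls_rev (g : Beh Q) (S : Set (DS Q)) :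
    (tcls (rev g) '' S).ncard = (tcls g '' (flip ⁻¹' S)).ncard := by
  rw [image_tcls_rev]
  apply Set.ncard_image_of_injective
  intro C D h
  have : flip ⁻¹' (flip ⁻¹' C) = flip ⁻¹' (flip ⁻¹' D) := congrArg _ h
  simpa [← Set.preimage_comp, Function.comp_def] using this

/-- DROP for left-movers -/
theorem drop_left [Finite Q] {g f : Beh Q} (hg : Idem g) (hf : Idem f)
    (hgfg : g ⊙ f ⊙ g = f) (T0 : Set (DS Q))
    (hT : ∀ x ∈ T0, x.1 = false → Kept g f x) :
    2 * (tcls f '' {x | x.1 = false ∧ Rec f x ∧ Disjoint (tcls f x) T0}).ncard +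
      (tcls g '' {x | x.1 = false ∧ x ∈ Lost g f}).ncard ≤
    2 * (tcls g '' {x | x.1 = false ∧ Rec g x ∧ Disjoint (tcls g x) T0}).ncard := by
  have h := drop_right (g := rev g) (f := rev f) hg.rev' hf.rev'
    (rev_mul3 hgfg) (flip ⁻¹' T0)
    (fun x hx hx1 => Kept_rev.2 (hT _ hx (by simp [hx1])))
  simp only [ncard_image_tcls_rev] at h
  have e1 : ∀ k : Beh Q, flip ⁻¹' {x | x.1 = true ∧ Rec (rev k) x ∧
      Disjoint (tcls (rev k) x) (flip ⁻¹' T0)} =
      {x | x.1 = false ∧ Rec k x ∧ Disjoint (tcls k x) T0} := by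
    intro k
    ext x
    simp only [Set.mem_preimage, Set.mem_ofPred_eq, Rec, Mid_rev, tcls_rev, flip_flip', flip_fst',
      Bool.not_eq_true']
    rw [Set.disjoint_preimage_iff]
    exact Function.Involutive.surjective flip_flip'
  have e2 : flip ⁻¹' {x | x.1 = true ∧ x ∈ Lost (rev g) (rev f)} =
      {x | x.1 = false ∧ x ∈ Lost g f} := by
    ext x
    simp [Lost_rev]
  rwa [e1, e1, e2] at h

/-- DROP lemma -/
theorem drop [Finite Q] (d : Bool) (T0 : Set (DS Q)) {g f : Beh Q} (hg : Idem g) (hf : Idem f)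
    (hgf : g ⊙ f ⊙ g = f) (hT : ∀ x ∈ T0, x.1 = d → Rec g x ∧ Kept g f x) :
    2 * Psi d T0 f + LostT d g f ≤ 2 * Psi d T0 g := by
  cases d
  · exact drop_left hg hf hgf T0 (fun x hx h => (hT x hx h).2)
  · exact drop_right hg hf hgf T0 (fun x hx h => (hT x hx h).2)

theorem cost_le_lostT [Finite Q] (g f : Beh Q) (hg : Idem g) :
    Cost g f ≤ LostT true g f + LostT false g f := by
  classical
  have h1 : (mcls g '' Lost g f).ncard ≤ (tcls g '' Lost g f).ncard := by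
    let F : Set (DS Q) → Set (DS Q) := fun C => if h : C.Nonempty then mcls g h.some else ∅
    have : mcls g '' Lost g f = F '' (tcls g '' Lost g f) := by
      rw [Set.image_image]
      apply Set.image_congr
      intro x hx
      have hne : (tcls g x).Nonempty := ⟨x, rfl, hx.1, hx.1⟩
      have hs : hne.some ∈ tcls g x := hne.some_mem
      simp only [F, hne, dif_pos]
      exact mcls_eq hg hs.2.1 hs.2.2
    rw [this]
    exact Set.ncard_image_le (Set.toFinite _)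
  have h2 : tcls g '' Lost g f = tcls g '' {x | x.1 = true ∧ x ∈ Lost g f} ∪
      tcls g '' {x | x.1 = false ∧ x ∈ Lost g f} := by
    rw [← Set.image_union]
    congr 1
    ext x
    cases hx : x.1 <;> simp [hx]
  calc Cost g f ≤ (tcls g '' Lost g f).ncard := h1
    _ ≤ _ := by rw [h2]; exact Set.ncard_union_le _ _

end Crest.Agent.R294
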