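import Crest.Agent.R294.Beh

/-!
R294 / Inj: the injection lemma `inj` (COST is monotone under changing the medium), the
two-location count `count2`, and `le_of_cost_zero`.

All paths are handled by the two laws `mid_mul_right` (A3) and `mid_mul_left` (A4).
-/

set_option autoImplicit false

namespace Crest.Agent.R294

variable {Q : Type*}

namespace Inj

theorem bool_cases (x : DS Q) : x.1 = true ∨ x.1 = false := by
  cases h : x.1 <;> simp

theorem kept_true {g f : Beh Q} {x : DS Q} (hx : x.1 = true) : Kept g f x ↔ Mid g f x x := by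
  unfold Kept; rw [if_pos hx]

theorem kept_false {g f : Beh Q} {x : DS Q} (hx : x.1 = false) : Kept g f x ↔ Mid f g x x := by
  unfold Kept; rw [if_neg (by rw [hx]; decide)]

/-! introduction forms of A3, A4 -/
theorem A3f {p q r : Beh Q} {x y : DS Q} (hy : y.1 = false) (h : Mid p q x y) : Mid p (q ⊙ r) x y :=
  (mid_mul_right p q r x y).2 (Or.inl ⟨hy, h⟩)

theorem A3t {p q r : Beh Q} {x x1 y : DS Q} (hx : x1.1 = true) (h : Mid p q x x1)
    (h' : Mid (p ⊙ q) r x1 y) : Mid p (q ⊙ r) x y :=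
  (mid_mul_right p q r x y).2 (Or.inr ⟨x1, hx, h, h'⟩)

theorem A4t {p q r : Beh Q} {x y : DS Q} (hy : y.1 = true) (h : Mid q r x y) : Mid (p ⊙ q) r x y :=
  (mid_mul_left p q r x y).2 (Or.inl ⟨hy, h⟩)

theorem A4f {p q r : Beh Q} {x x1 y : DS Q} (hx : x1.1 = false) (h : Mid q r x x1)
    (h' : Mid p (q ⊙ r) x1 y) : Mid (p ⊙ q) r x y :=
  (mid_mul_left p q r x y).2 (Or.inr ⟨x1, hx, h, h'⟩)

theorem mulTF {p q : Beh Q} {x y : DS Q} (hx : x.1 = true) (hy : y.1 = false) (h : p x y) :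
    (p ⊙ q) x y := (mul_true hx).2 (Or.inl ⟨hy, h⟩)

theorem mulT {p q : Beh Q} {x x1 y : DS Q} (hx : x.1 = true) (hx1 : x1.1 = true) (h : p x x1)
    (h' : Mid p q x1 y) : (p ⊙ q) x y := (mul_true hx).2 (Or.inr ⟨x1, hx1, h, h'⟩)

theorem mulFT {p q : Beh Q} {x y : DS Q} (hx : x.1 = false) (hy : y.1 = true) (h : q x y) :
    (p ⊙ q) x y := (mul_false hx).2 (Or.inl ⟨hy, h⟩)

theorem mulF {p q : Beh Q} {x x1 y : DS Q} (hx : x.1 = false) (hx1 : x1.1 = false) (h : q x x1)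
    (h' : Mid p q x1 y) : (p ⊙ q) x y := (mul_false hx).2 (Or.inr ⟨x1, hx1, h, h'⟩)

theorem stepT {p q : Beh Q} {x z y : DS Q} (hx : x.1 = true) (hz : z.1 = false) (h : q x z)
    (h' : Mid p q z y) : Mid p q x y := Mid.cons (Refl.right hx hz h) h'

theorem stepF {p q : Beh Q} {x z y : DS Q} (hx : x.1 = false) (hz : z.1 = true) (h : p x z)
    (h' : Mid p q z y) : Mid p q x y := Mid.cons (Refl.left hx hz h) h'

/-- absorption: generalised transitivity -/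
theorem absorb {g U W : Beh Q} (hU : U ⊙ g = U) (hW : g ⊙ W = W) {c c' y : DS Q}
    (h : Mid g g c c') (h' : Mid U W c' y) : Mid U W c y := by
  rcases bool_cases c' with hc | hc
  · have h1 : Mid U g c c' := by
      have : Mid (U ⊙ g) g c c' := A4t hc h
      rwa [hU] at this
    have h2 : Mid U (g ⊙ W) c y := A3t hc h1 (by rwa [hU])
    rwa [hW] at h2
  · have h1 : Mid g W c c' := by
      have : Mid g (g ⊙ W) c c' := A3f hc h
      rwa [hW] at this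
    have h2 : Mid (U ⊙ g) W c y := A4f hc h1 (by rwa [hW])
    rwa [hU] at h2

theorem E_trans {g : Beh Q} (hg : g ⊙ g = g) {x y z : DS Q} (h : Mid g g x y)
    (h' : Mid g g y z) : Mid g g x z := absorb hg hg h h'

theorem E_denseT {g : Beh Q} (hg : g ⊙ g = g) {x y : DS Q} (hy : y.1 = true)
    (h : Mid g g x y) : ∃ z, z.1 = true ∧ Mid g g x z ∧ Mid g g z y := by
  have h1 : Mid g (g ⊙ g) x y := by rw [hg]; exact h
  rcases (mid_mul_right g g g x y).1 h1 with ⟨h2, _⟩ | ⟨z, hz, h2, h3⟩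
  · rw [hy] at h2; exact absurd h2 (by decide)
  · exact ⟨z, hz, h2, by rwa [hg] at h3⟩

theorem E_denseF {g : Beh Q} (hg : g ⊙ g = g) {x y : DS Q} (hy : y.1 = false)
    (h : Mid g g x y) : ∃ z, z.1 = false ∧ Mid g g x z ∧ Mid g g z y := by
  have h1 : Mid (g ⊙ g) g x y := by rw [hg]; exact h
  rcases (mid_mul_left g g g x y).1 h1 with ⟨h2, _⟩ | ⟨z, hz, h2, h3⟩
  · rw [hy] at h2; exact absurd h2 (by decide)
  · exact ⟨z, hz, h2, by rwa [hg] at h3⟩

/-- recurrent point in a dense set -/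
theorem exists_rec [Finite Q] {g : Beh Q} (hg : g ⊙ g = g) (S : Set (DS Q)) (hS : S.Nonempty)
    (hd : ∀ x ∈ S, ∃ z ∈ S, Mid g g x z) : ∃ d ∈ S, Mid g g d d := by
  classical
  let r : DS Q → DS Q → Prop := fun a b => Mid g g b a ∧ ¬ Mid g g a b
  have hr1 : IsTrans (DS Q) r := ⟨by
    rintro a b c ⟨h1, h2⟩ ⟨h3, h4⟩
    exact ⟨E_trans hg h3 h1, fun h => h4 (E_trans hg h1 h)⟩⟩
  have hr2 : Std.Irrefl r := ⟨fun a h => h.2 h.1⟩
  have wf : WellFounded r := Finite.wellFounded_of_trans_of_irrefl r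
  obtain ⟨d, hd1, hd2⟩ := wf.has_min S hS
  obtain ⟨z, hz1, hz2⟩ := hd d hd1
  have h3 : ¬ r z d := hd2 z hz1
  have h4 : Mid g g z d := by
    by_contra hcon
    exact h3 ⟨hz2, hcon⟩
  exact ⟨d, hd1, E_trans hg hz2 h4⟩

/-- crossing factorization -/
theorem factT [Finite Q] {g : Beh Q} (hg : g ⊙ g = g) {x y : DS Q} (hx : x.1 = true)
    (hy : y.1 = true) (h : g x y) :
    ∃ d, d.1 = true ∧ g x d ∧ Mid g g d d ∧ Mid g g d y := by
  have h1 : (g ⊙ g) x y := by rw [hg]; exact h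
  rcases (mul_true hx).1 h1 with ⟨h2, _⟩ | ⟨x1, hx1, h2, h3⟩
  · rw [hy] at h2; exact absurd h2 (by decide)
  · obtain ⟨d, ⟨hd1, hd2, hd3⟩, hd4⟩ := exists_rec hg {d | d.1 = true ∧ g x d ∧ Mid g g d y}
      ⟨x1, hx1, h2, h3⟩ (by
        rintro a ⟨ha1, ha2, ha3⟩
        obtain ⟨b, hb1, hb2, hb3⟩ := E_denseT hg hy ha3
        refine ⟨b, ⟨hb1, ?_, hb3⟩, hb2⟩
        have h5 : (g ⊙ g) x b := mulT hx ha1 ha2 hb2
        rwa [hg] at h5)
    exact ⟨d, hd1, hd2, hd4, hd3⟩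

theorem factF [Finite Q] {g : Beh Q} (hg : g ⊙ g = g) {x y : DS Q} (hx : x.1 = false)
    (hy : y.1 = false) (h : g x y) :
    ∃ d, d.1 = false ∧ g x d ∧ Mid g g d d ∧ Mid g g d y := by
  have h1 : (g ⊙ g) x y := by rw [hg]; exact h
  rcases (mul_false hx).1 h1 with ⟨h2, _⟩ | ⟨x1, hx1, h2, h3⟩
  · rw [hy] at h2; exact absurd h2 (by decide)
  · obtain ⟨d, ⟨hd1, hd2, hd3⟩, hd4⟩ := exists_rec hg {d | d.1 = false ∧ g x d ∧ Mid g g d y}
      ⟨x1, hx1, h2, h3⟩ (by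
        rintro a ⟨ha1, ha2, ha3⟩
        obtain ⟨b, hb1, hb2, hb3⟩ := E_denseF hg hy ha3
        refine ⟨b, ⟨hb1, ?_, hb3⟩, hb2⟩
        have h5 : (g ⊙ g) x b := mulF hx ha1 ha2 hb2
        rwa [hg] at h5)
    exact ⟨d, hd1, hd2, hd4, hd3⟩

/-! ### the key lemma -/

section Key
variable [Finite Q] {g U W f : Beh Q}

/-- one step of the induction, right moving -/
theorem key_stepT (hg : g ⊙ g = g) (hU : U ⊙ g = U) (hW : g ⊙ W = W)
    (hf1 : g ⊙ f = f) (hf2 : f ⊙ g = f) {x n : DS Q} (hn : n.1 = true)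
    (hk : ∀ d, d.1 = true → Mid g g d d → g n d → Mid U W d x → Mid g f d d)
    {y : DS Q} (hWy : W n y)
    (hy : (y.1 = true ∧ y = x) ∨
      (y.1 = false ∧ Mid U W y x ∧ Mid U (f ⊙ W) y x ∧ Mid (U ⊙ f) W y x)) :
    Mid U (f ⊙ W) n x ∧ Mid (U ⊙ f) W n x := by
  constructor
  · have h1 : (g ⊙ W) n y := by rw [hW]; exact hWy
    rcases (mul_true hn).1 h1 with ⟨h2, h3⟩ | ⟨a, ha, h2, h3⟩
    · -- reflection
      rcases hy with ⟨hy, _⟩ | ⟨_, _, hy2, _⟩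
      · rw [hy] at h2; exact absurd h2 (by decide)
      · refine stepT hn h2 ?_ hy2
        apply mulTF hn h2
        rw [← hf1]
        exact mulTF hn h2 h3
    · -- crossing
      obtain ⟨d, hd1, hd2, hd3, hd4⟩ := factT hg hn ha h2
      have h4 : Mid g W d y := by
        have : Mid g (g ⊙ W) d y := A3t ha hd4 (by rwa [hg])
        rwa [hW] at this
      have h5 : Mid U W d x := by
        rcases hy with ⟨hy, rfl⟩ | ⟨hy, hy1, _, _⟩
        · have : Mid (U ⊙ g) W d y := A4t hy h4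
          rwa [hU] at this
        · have : Mid (U ⊙ g) W d x := A4f hy h4 (by rwa [hW])
          rwa [hU] at this
      have h6 : Mid g f d d := hk d hd1 hd3 hd2 h5
      have hUf : U ⊙ f ⊙ g = U ⊙ f := by rw [mul_assoc', hf2]
      have h7 : Mid (U ⊙ f) W d x := by
        rcases hy with ⟨hy, rfl⟩ | ⟨hy, _, _, hy1⟩
        · have : Mid (U ⊙ f ⊙ g) W d y := A4t hy h4
          rwa [hUf] at this
        · have : Mid (U ⊙ f ⊙ g) W d x := A4f hy h4 (by rwa [hW])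
          rwa [hUf] at this
      have h8 : Mid U f d d := by
        have : Mid (U ⊙ g) f d d := A4t hd1 h6
        rwa [hU] at this
      have h9 : Mid U (f ⊙ W) d x := A3t hd1 h8 h7
      have h10 : Mid U (g ⊙ (f ⊙ W)) n x := A3t hd1 (Mid.outR hn hd1 hd2) (by rwa [hU])
      rwa [← mul_assoc', hf1] at h10
  · rcases hy with ⟨hy, rfl⟩ | ⟨hy, _, _, hy1⟩
    · exact Mid.outR hn hy hWy
    · exact stepT hn hy hWy hy1

/-- one step of the induction, left moving -/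
theorem key_stepF (hg : g ⊙ g = g) (hU : U ⊙ g = U) (hW : g ⊙ W = W)
    (hf1 : g ⊙ f = f) (hf2 : f ⊙ g = f) {x n : DS Q} (hn : n.1 = false)
    (hk : ∀ d, d.1 = false → Mid g g d d → g n d → Mid U W d x → Mid f g d d)
    {y : DS Q} (hUy : U n y)
    (hy : (y.1 = false ∧ y = x) ∨
      (y.1 = true ∧ Mid U W y x ∧ Mid U (f ⊙ W) y x ∧ Mid (U ⊙ f) W y x)) :
    Mid U (f ⊙ W) n x ∧ Mid (U ⊙ f) W n x := by
  constructor
  · rcases hy with ⟨hy, rfl⟩ | ⟨hy, _, hy1, _⟩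
    · exact Mid.outL hn hy hUy
    · exact stepF hn hy hUy hy1
  · have h1 : (U ⊙ g) n y := by rw [hU]; exact hUy
    rcases (mul_false hn).1 h1 with ⟨h2, h3⟩ | ⟨a, ha, h2, h3⟩
    · -- reflection
      rcases hy with ⟨hy, _⟩ | ⟨_, _, _, hy2⟩
      · rw [hy] at h2; exact absurd h2 (by decide)
      · refine stepF hn h2 ?_ hy2
        apply mulFT hn h2
        rw [← hf2]
        exact mulFT hn h2 h3
    · -- crossing
      obtain ⟨d, hd1, hd2, hd3, hd4⟩ := factF hg hn ha h2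
      have h4 : Mid U g d y := by
        have : Mid (U ⊙ g) g d y := A4f ha hd4 (by rwa [hg])
        rwa [hU] at this
      have h5 : Mid U W d x := by
        rcases hy with ⟨hy, rfl⟩ | ⟨hy, hy1, _, _⟩
        · have : Mid U (g ⊙ W) d y := A3f hy h4
          rwa [hW] at this
        · have : Mid U (g ⊙ W) d x := A3t hy h4 (by rwa [hU])
          rwa [hW] at this
      have h6 : Mid f g d d := hk d hd1 hd3 hd2 h5
      have hfW : g ⊙ (f ⊙ W) = f ⊙ W := by rw [← mul_assoc', hf1]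
      have h7 : Mid U (f ⊙ W) d x := by
        rcases hy with ⟨hy, rfl⟩ | ⟨hy, _, hy1, _⟩
        · have : Mid U (g ⊙ (f ⊙ W)) d y := A3f hy h4
          rwa [hfW] at this
        · have : Mid U (g ⊙ (f ⊙ W)) d x := A3t hy h4 (by rwa [hU])
          rwa [hfW] at this
      have h8 : Mid f W d d := by
        have : Mid f (g ⊙ W) d d := A3f hd1 h6
        rwa [hW] at this
      have h9 : Mid (U ⊙ f) W d x := A4f hd1 h8 h7
      have h10 : Mid (U ⊙ f ⊙ g) W n x := A4f hd1 (Mid.outL hn hd1 hd2) (by rwa [hW])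
      rwa [mul_assoc', hf2] at h10

/-- The claim, by head induction on the path. -/
theorem key_claim (hg : g ⊙ g = g) (hU : U ⊙ g = U) (hW : g ⊙ W = W)
    (hf1 : g ⊙ f = f) (hf2 : f ⊙ g = f) {x : DS Q} (S : DS Q → Prop)
    (hS : ∀ n n', S n → (∀ y, Mid U W n' y → Mid U W n y) → S n')
    (hk : ∀ d, S d → Mid g g d d → Mid U W d x → Kept g f d) {n : DS Q}
    (h : Mid U W n x) : S n → Mid U (f ⊙ W) n x ∧ Mid (U ⊙ f) W n x := by
  have hkT : ∀ n, n.1 = true → S n →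
      ∀ d, d.1 = true → Mid g g d d → g n d → Mid U W d x → Mid g f d d := by
    intro n hn hSn d hd hdd hnd hdx
    have h1 : S d := by
      apply hS n d hSn
      intro y hy
      have : Mid U (g ⊙ W) n y := A3t hd (Mid.outR hn hd hnd) (by rwa [hU])
      rwa [hW] at this
    exact (kept_true hd).1 (hk d h1 hdd hdx)
  have hkF : ∀ n, n.1 = false → S n →
      ∀ d, d.1 = false → Mid g g d d → g n d → Mid U W d x → Mid f g d d := by
    intro n hn hSn d hd hdd hnd hdx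
    have h1 : S d := by
      apply hS n d hSn
      intro y hy
      have : Mid (U ⊙ g) W n y := A4f hd (Mid.outL hn hd hnd) (by rwa [hW])
      rwa [hU] at this
    exact (kept_false hd).1 (hk d h1 hdd hdx)
  refine Mid.rec' (C := fun n => S n → Mid U (f ⊙ W) n x ∧ Mid (U ⊙ f) W n x) ?_ ?_ ?_ ?_ h
  · intro n hn hx hW1 hSn
    exact key_stepT hg hU hW hf1 hf2 hn (hkT n hn hSn) hW1 (Or.inl ⟨hx, rfl⟩)
  · intro n hn hx hU1 hSn
    exact key_stepF hg hU hW hf1 hf2 hn (hkF n hn hSn) hU1 (Or.inl ⟨hx, rfl⟩)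
  · intro n z hn hz hW1 hm ih hSn
    have hSz : S z := hS n z hSn (fun y hy => stepT hn hz hW1 hy)
    exact key_stepT hg hU hW hf1 hf2 hn (hkT n hn hSn) hW1 (Or.inr ⟨hz, hm, ih hSz⟩)
  · intro n z hn hz hU1 hm ih hSn
    have hSz : S z := hS n z hSn (fun y hy => stepF hn hz hU1 hy)
    exact key_stepF hg hU hW hf1 hf2 hn (hkF n hn hSn) hU1 (Or.inr ⟨hz, hm, ih hSz⟩)

/-- Key lemma. -/
theorem key {K : Beh Q} (hg : g ⊙ g = g) (hU : U ⊙ g = U) (hW : g ⊙ W = W)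
    (hf1 : g ⊙ f = f) (hf2 : f ⊙ g = f) (hKU : K ⊙ U = U) (hWK : W ⊙ K = W) (hK : U ⊙ W = K)
    {x : DS Q} (hx : Mid K K x x)
    (hk : ∀ d, (∀ y, Mid U W d y → Mid K K x y) → Mid g g d d → Mid U W d x → Kept g f d) :
    Kept K (U ⊙ f ⊙ W) x := by
  have claim := fun (n : DS Q) (h : Mid U W n x) =>
    key_claim hg hU hW hf1 hf2 (fun d => ∀ y, Mid U W d y → Mid K K x y)
      (fun n n' h1 h2 y hy => h1 y (h2 y hy)) hk h
  rcases bool_cases x with hx1 | hx1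
  · rw [kept_true hx1]
    have h1 : Mid K (U ⊙ W) x x := by rw [hK]; exact hx
    rcases (mid_mul_right K U W x x).1 h1 with ⟨h2, _⟩ | ⟨x1, hx2, h2, h3⟩
    · rw [hx1] at h2; exact absurd h2 (by decide)
    · rw [hKU] at h3
      have h4 := (claim x1 h3 (by
        intro y hy
        have : Mid K (U ⊙ W) x y := A3t hx2 h2 (by rwa [hKU])
        rwa [hK] at this)).1
      have h5 : Mid K (U ⊙ (f ⊙ W)) x x := A3t hx2 h2 (by rwa [hKU])
      rwa [mul_assoc']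
  · rw [kept_false hx1]
    have h1 : Mid (U ⊙ W) K x x := by rw [hK]; exact hx
    rcases (mid_mul_left U W K x x).1 h1 with ⟨h2, _⟩ | ⟨x1, hx2, h2, h3⟩
    · rw [hx1] at h2; exact absurd h2 (by decide)
    · rw [hWK] at h3
      have h4 := (claim x1 h3 (by
        intro y hy
        have : Mid (U ⊙ W) K x y := A4f hx2 h2 (by rwa [hWK])
        rwa [hK] at this)).2
      exact A4f hx2 h2 (by rwa [hWK])

end Key

theorem mcls_eq {g : Beh Q} (hg : g ⊙ g = g) {x y : DS Q} (h : Mid g g x y) (h' : Mid g g y x) :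
    mcls g x = mcls g y := by
  ext z
  constructor
  · rintro ⟨h1, h2⟩
    exact ⟨E_trans hg h' h1, E_trans hg h2 h⟩
  · rintro ⟨h1, h2⟩
    exact ⟨E_trans hg h h1, E_trans hg h2 h'⟩

theorem of_mcls_eq {g : Beh Q} {x y : DS Q} (hx : Mid g g x x) (h : mcls g x = mcls g y) :
    Mid g g x y ∧ Mid g g y x := by
  have : x ∈ mcls g y := h ▸ (show x ∈ mcls g x from ⟨hx, hx⟩)
  exact ⟨this.2, this.1⟩

/-- comparing cardinalities along an injective relation -/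
theorem ncard_le_of_rel {α β : Type*} {S : Set α} {T : Set β} (hT : T.Finite)
    (r : α → β → Prop) (h1 : ∀ s ∈ S, ∃ t ∈ T, r s t)
    (h2 : ∀ s ∈ S, ∀ s' ∈ S, ∀ t ∈ T, r s t → r s' t → s = s') : S.ncard ≤ T.ncard := by
  classical
  rcases S.eq_empty_or_nonempty with rfl | ⟨s0, hs0⟩
  · simp
  · obtain ⟨t0, ht0, _⟩ := h1 s0 hs0
    have : Nonempty β := ⟨t0⟩
    choose! f hf1 hf2 using h1
    exact Set.ncard_le_ncard_of_injOn f hf1
      (fun s hs s' hs' h => h2 s hs s' hs' (f s) (hf1 s hs) (hf2 s hs) (h ▸ hf2 s' hs')) hT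

theorem fix_left {z X : Beh Q} (hz : z ⊙ z = z) (hX : z ⊙ X ⊙ z = X) : z ⊙ X = X := by
  conv_lhs => rw [← hX]
  rw [← mul_assoc', ← mul_assoc', hz, hX]

theorem fix_right {z X : Beh Q} (hz : z ⊙ z = z) (hX : z ⊙ X ⊙ z = X) : X ⊙ z = X := by
  conv_lhs => rw [← hX]
  rw [mul_assoc', hz, hX]

/-- The injection, family version. -/
theorem inj_family [Finite Q] {K g U W : Beh Q} (hKK : K ⊙ K = K) (hg : g ⊙ g = g)
    (hKU : K ⊙ U = U) (hU : U ⊙ g = U) (hW : g ⊙ W = W) (hWK : W ⊙ K = W) (hK : U ⊙ W = K)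
    (F : Set (Beh Q)) (hF : ∀ f ∈ F, g ⊙ f ⊙ g = f) :
    (mcls K '' {x | Rec K x ∧ ∃ f ∈ F, ¬ Kept K (U ⊙ f ⊙ W) x}).ncard ≤
      (mcls g '' {c | Rec g c ∧ ∃ f ∈ F, ¬ Kept g f c}).ncard := by
  classical
  have key1 : ∀ x, Mid K K x x → (∃ f ∈ F, ¬ Kept K (U ⊙ f ⊙ W) x) →
      ∃ c, Mid g g c c ∧ (∃ f ∈ F, ¬ Kept g f c) ∧ (∀ y, Mid U W c y → Mid K K x y) ∧
        Mid U W c x := by
    intro x hx ⟨f, hf, hnk⟩
    by_contra hcon
    push Not at hcon
    apply hnk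
    apply key hg hU hW (fix_left hg (hF f hf)) (fix_right hg (hF f hf)) hKU hWK hK hx
    intro d hd hdd hdx
    by_contra hnk'
    exact hcon d hdd ⟨f, hf, hnk'⟩ hd hdx
  refine ncard_le_of_rel (Set.toFinite _)
    (fun s t => ∃ x c, mcls K x = s ∧ mcls g c = t ∧ Mid g g c c ∧
      (∀ y, Mid U W c y → Mid K K x y) ∧ Mid U W c x) ?_ ?_
  · rintro s ⟨x, ⟨hx1, hx2⟩, rfl⟩
    obtain ⟨c, h1, h2, h3, h4⟩ := key1 x hx1 hx2
    exact ⟨mcls g c, ⟨c, ⟨h1, h2⟩, rfl⟩, x, c, rfl, rfl, h1, h3, h4⟩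
  · rintro s - s' - t - ⟨x, c, rfl, hc, h1, h2, h3⟩ ⟨x', c', rfl, hc', h1', h2', h3'⟩
    obtain ⟨h4, h5⟩ := of_mcls_eq h1 (hc.trans hc'.symm)
    exact mcls_eq hKK (h2 _ (absorb hU hW h4 h3')) (h2' _ (absorb hU hW h5 h3))

theorem kept_mul {z X Y : Beh Q} (hXr : X ⊙ z = X) (hYl : z ⊙ Y = Y)
    (hXl : z ⊙ X = X) (hYr : Y ⊙ z = Y)
    {c : DS Q} (h1 : Kept z X c) (h2 : Kept z Y c) : Kept z (X ⊙ Y) c := by
  rcases bool_cases c with hc | hc
  · rw [kept_true hc] at *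
    refine A3t hc h1 ?_
    rw [hXl]
    have : Mid (X ⊙ z) Y c c := A4t hc h2
    rwa [hXr] at this
  · rw [kept_false hc] at *
    refine A4f hc h2 ?_
    rw [hYr]
    have : Mid X (z ⊙ Y) c c := A3f hc h1
    rwa [hYl] at this

theorem kept_mul' {z X Y : Beh Q} (hz : z ⊙ z = z) (hX : z ⊙ X ⊙ z = X) (hY : z ⊙ Y ⊙ z = Y)
    {c : DS Q} (h1 : Kept z X c) (h2 : Kept z Y c) : Kept z (X ⊙ Y) c :=
  kept_mul (fix_right hz hX) (fix_left hz hY) (fix_left hz hX) (fix_right hz hY) h1 h2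

theorem Lost_mul_subset {z X Y : Beh Q} (hz : z ⊙ z = z) (hX : z ⊙ X ⊙ z = X)
    (hY : z ⊙ Y ⊙ z = Y) : Lost z (X ⊙ Y) ⊆ Lost z X ∪ Lost z Y := by
  rintro c ⟨h1, h2⟩
  by_contra hcon
  apply h2
  apply kept_mul' hz hX hY
  · by_contra h; exact hcon (Or.inl ⟨h1, h⟩)
  · by_contra h; exact hcon (Or.inr ⟨h1, h⟩)

theorem ncard_iUnion_le_sum {α ι : Type*} [Fintype ι] (S : ι → Set α) :
    (⋃ i, S i).ncard ≤ ∑ i, (S i).ncard := by
  have := Finset.set_ncard_biUnion_le Finset.univ S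
  simpa using this

end Inj

open Inj

/-- INJ: the cost is not increased by changing the medium. -/
theorem inj [Finite Q] {K g U V f : Beh Q} (hK : Idem K) (hg : Idem g)
    (hKU : K ⊙ U = U) (hUg : U ⊙ g = U) (hgV : g ⊙ V = V) (hVK : V ⊙ K = V)
    (hUV : U ⊙ V = K) (hf : g ⊙ f ⊙ g = f) : Cost K (U ⊙ f ⊙ V) ≤ Cost g f := by
  have h := inj_family hK hg hKU hUg hgV hVK hUV {f} (by rintro f' rfl; exact hf)
  simpa [Cost, Lost] using h

/-- two-location count -/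
theorem count2 [Finite Q] {ι κ : Type*} [Fintype ι] [Fintype κ] {K z : Beh Q}
    (hK : Idem K) (hz : Idem z) (hKz : K ⊙ z = K) (hzK : z ⊙ K = K)
    (X : ι → Beh Q) (Y : κ → Beh Q) (hX : ∀ i, z ⊙ X i ⊙ z = X i) (hY : ∀ j, z ⊙ Y j ⊙ z = Y j) :
    (mcls K '' {x | Rec K x ∧ ∃ i j, ¬ Kept K (K ⊙ X i ⊙ Y j ⊙ K) x}).ncard ≤
      ∑ i, Cost z (X i) + ∑ j, Cost z (Y j) := by
  classical
  have h1 := inj_family (g := z) (K := K) (U := K) (W := K) hK hz hK hKz hzK hK hK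
    {f | ∃ i j, f = X i ⊙ Y j} (by
      rintro f ⟨i, j, rfl⟩
      rw [← mul_assoc', fix_left hz (hX i), mul_assoc', fix_right hz (hY j)])
  have h2 : {x | Rec K x ∧ ∃ f ∈ {f | ∃ i j, f = X i ⊙ Y j}, ¬ Kept K (K ⊙ f ⊙ K) x} =
      {x | Rec K x ∧ ∃ i j, ¬ Kept K (K ⊙ X i ⊙ Y j ⊙ K) x} := by
    ext x
    constructor
    · rintro ⟨hx, f, ⟨i, j, rfl⟩, hn⟩
      exact ⟨hx, i, j, by rwa [← mul_assoc'] at hn⟩
    · rintro ⟨hx, i, j, hn⟩
      exact ⟨hx, _, ⟨i, j, rfl⟩, by rwa [← mul_assoc']⟩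
  rw [h2] at h1
  refine h1.trans ?_
  have h3 : mcls z '' {c | Rec z c ∧ ∃ f ∈ {f | ∃ i j, f = X i ⊙ Y j}, ¬ Kept z f c} ⊆
      (⋃ i, mcls z '' Lost z (X i)) ∪ (⋃ j, mcls z '' Lost z (Y j)) := by
    rintro s ⟨c, ⟨hc, f, ⟨i, j, rfl⟩, hn⟩, rfl⟩
    rcases Lost_mul_subset hz (hX i) (hY j) ⟨hc, hn⟩ with h | h
    · exact Or.inl (Set.mem_iUnion.2 ⟨i, c, h, rfl⟩)
    · exact Or.inr (Set.mem_iUnion.2 ⟨j, c, h, rfl⟩)
  refine (Set.ncard_le_ncard h3 (Set.toFinite _)).trans ?_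
  refine (Set.ncard_union_le _ _).trans ?_
  exact Nat.add_le_add (ncard_iUnion_le_sum _) (ncard_iUnion_le_sum _)

/-- the potential is bounded by the number of bad classes -/
theorem psi_le_bad [Finite Q] (d : Bool) {K : Beh Q} (_hK : Idem K) (T0 : Set (DS Q)) :
    Psi d T0 K ≤ (mcls K '' {x | Rec K x ∧ x ∉ T0}).ncard := by
  unfold Psi
  refine ncard_le_of_rel (Set.toFinite _)
    (fun s t => ∃ x, x.1 = d ∧ Rec K x ∧ tcls K x = s ∧ mcls K x = t) ?_ ?_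
  · rintro s ⟨x, ⟨hx1, hx2, hx3⟩, rfl⟩
    have hxm : x ∈ tcls K x := ⟨rfl, hx2, hx2⟩
    exact ⟨mcls K x, ⟨x, ⟨hx2, fun h => Set.disjoint_left.1 hx3 hxm h⟩, rfl⟩,
      x, hx1, hx2, rfl, rfl⟩
  · rintro s - s' - t - ⟨x, h1, h2, rfl, h3⟩ ⟨x', h1', h2', rfl, h3'⟩
    have h4 : ∀ y, y ∈ mcls K x ↔ y ∈ mcls K x' := by
      intro y; rw [h3, h3']
    ext y
    constructor
    · rintro ⟨a, b⟩
      exact ⟨by rw [a, h1, h1'], (h4 y).1 b⟩
    · rintro ⟨a, b⟩
      exact ⟨by rw [a, h1, h1'], (h4 y).2 b⟩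

/-- BASE: nothing lost implies that `X` can do everything that `z` does. -/
theorem le_of_cost_zero [Finite Q] {z X : Beh Q} (hz : Idem z) (hX : z ⊙ X ⊙ z = X)
    (h : Cost z X = 0) : ∀ x y, z x y → X x y := by
  intro x y h
  rename_i h0
  have hL : Lost z X = ∅ := by
    unfold Cost at h0
    rw [Set.ncard_eq_zero (Set.toFinite _)] at h0
    simpa using h0
  have hz' : z ⊙ z = z := hz
  have hl := fix_left hz' hX
  have hr := fix_right hz' hX
  have hk : ∀ d, Mid z z d d → Kept z X d := by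
    intro d hd
    by_contra hcon
    have : d ∈ Lost z X := ⟨hd, hcon⟩
    rw [hL] at this
    exact this
  rcases bool_cases x with hx | hx <;> rcases bool_cases y with hy | hy
  · obtain ⟨d, hd1, hd2, hd3, hd4⟩ := factT hz' hx hy h
    have h1 := (kept_true hd1).1 (hk d hd3)
    have h2 : Mid X z d y := by
      have : Mid (X ⊙ z) z d y := A4t hy hd4
      rwa [hr] at this
    have h3 : Mid z X d y := by
      have : Mid z (X ⊙ z) d y := A3t hd1 h1 (by rwa [hl])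
      rwa [hr] at this
    have h4 : (z ⊙ X) x y := mulT hx hd1 hd2 h3
    rwa [hl] at h4
  · have : (z ⊙ X) x y := mulTF hx hy h
    rwa [hl] at this
  · have : (X ⊙ z) x y := mulFT hx hy h
    rwa [hr] at this
  · obtain ⟨d, hd1, hd2, hd3, hd4⟩ := factF hz' hx hy h
    have h1 := (kept_false hd1).1 (hk d hd3)
    have h2 : Mid z X d y := by
      have : Mid z (z ⊙ X) d y := A3f hy (by
        exact hd4)
      rwa [hl] at this
    have h3 : Mid X z d y := by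
      have : Mid (z ⊙ X) z d y := A4f hd1 h1 (by rwa [hr])
      rwa [hl] at this
    have h4 : (X ⊙ z) x y := mulF hx hd1 hd2 h3
    rwa [hr] at h4

theorem cost_le [Fintype Q] (g f : Beh Q) : Cost g f ≤ 2 * Fintype.card Q := by
  unfold Cost
  refine (Set.ncard_image_le (Set.toFinite _)).trans ?_
  have h1 : (Lost g f).ncard ≤ Nat.card (DS Q) := by
    rw [← Set.ncard_univ]
    exact Set.ncard_le_ncard (Set.subset_univ _) (Set.toFinite _)
  refine h1.trans ?_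
  simp [Nat.card_eq_fintype_card]

end Crest.Agent.R294
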