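import Crest.Agent.R294.Beh
import Crest.Agent.R294.Idem
import Crest.Agent.R294.Inj
import Crest.Agent.R294.GoodWd

set_option autoImplicit false

/-!
R294, main step: relation level, bipartite chain, `claim_base`, `claim_step`.
-/

namespace Crest.Agent.R294

open Crest.TwoWay


section Rel

variable {h : ℕ}

theorem wordRel_append (u v : List (Let h)) (a c : Fin h) :
    wordRel (u ++ v) a c ↔ ∃ b, wordRel u a b ∧ wordRel v b c := by
  induction u generalizing a with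
  | nil => simp [wordRel]
  | cons R u ih =>
    simp only [List.cons_append, wordRel, ih]
    constructor
    · rintro ⟨b, h1, b', h2, h3⟩; exact ⟨b', ⟨b, h1, h2⟩, h3⟩
    · rintro ⟨b', ⟨b, h1, h2⟩, h3⟩; exact ⟨b, h1, b', h2, h3⟩

theorem wordRel_letter (R : Fin h → Fin h → Prop) (a c : Fin h) :
    wordRel [letter R] a c ↔ R a c := by
  simp [wordRel, letter]

theorem wordRel_replicate (w : List (Let h)) (r : Fin h → Fin h → Prop)
    (hx : ∀ a c, wordRel w a c ↔ r a c) (hr : ∀ a c, (∃ b, r a b ∧ r b c) ↔ r a c) (n : ℕ)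
    (hn : 1 ≤ n) : ∀ a c, wordRel (List.replicate n w).flatten a c ↔ r a c := by
  obtain ⟨n, rfl⟩ : ∃ k, n = k + 1 := ⟨n - 1, by omega⟩
  clear hn
  induction n with
  | zero => simpa using hx
  | succ n ih =>
    intro a c
    rw [List.replicate_succ, List.flatten_cons, wordRel_append, ← hr a c]
    simp only [ih, hx]

theorem IdP_idem (P : Finset (Fin h)) (a c : Fin h) :
    (∃ b, IdP P a b ∧ IdP P b c) ↔ IdP P a c := by
  unfold IdP
  constructor
  · rintro ⟨b, ⟨rfl, h1⟩, rfl, h2⟩; exact ⟨rfl, h1⟩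
  · rintro ⟨rfl, h1⟩; exact ⟨a, ⟨rfl, h1⟩, rfl, h1⟩

/-- the relation of the chain elements -/
def relA (P1 : Finset (Fin h)) {n : ℕ} (β γ : Fin n → Fin h) (A : Finset (Fin n × Fin n)) :
    Fin h → Fin h → Prop :=
  fun a d => (a = d ∧ a ∈ P1) ∨ ∃ q ∈ A, a = β q.1 ∧ d = γ q.2

theorem relA_trans {P1 : Finset (Fin h)} {n : ℕ} {β γ : Fin n → Fin h}
    (hβ : ∀ i, β i ∈ P1) (hβγ : ∀ i j, β i ≠ γ j)
    (A : Finset (Fin n × Fin n)) (a c : Fin h) :
    (∃ b, relA P1 β γ A a b ∧ relA P1 β γ A b c) ↔ relA P1 β γ A a c := by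
  constructor
  · rintro ⟨b, (⟨rfl, h1⟩ | ⟨q, hq, rfl, rfl⟩), (⟨rfl, h2⟩ | ⟨q', hq', h3, rfl⟩)⟩
    · exact Or.inl ⟨rfl, h1⟩
    · exact Or.inr ⟨q', hq', h3, rfl⟩
    · exact Or.inr ⟨q, hq, rfl, rfl⟩
    · exact absurd h3.symm (hβγ _ _)
  · rintro (⟨rfl, h1⟩ | ⟨q, hq, rfl, rfl⟩)
    · exact ⟨a, Or.inl ⟨rfl, h1⟩, Or.inl ⟨rfl, h1⟩⟩
    · exact ⟨β q.1, Or.inl ⟨rfl, hβ _⟩, Or.inr ⟨q, hq, rfl, rfl⟩⟩

/-- splitting of `P` -/
theorem split_points (P : Finset (Fin h)) (p n : ℕ) (hP : P.card = p + (2 * n + 1)) :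
    ∃ (P0 : Finset (Fin h)) (c : Fin h) (β γ : Fin n → Fin h), P0.card = p ∧ P0 ⊆ P ∧ c ∈ P ∧
      c ∉ P0 ∧ (∀ i, β i ∈ P) ∧ (∀ i, γ i ∈ P) ∧ (∀ i, β i ∉ P0) ∧ (∀ i, γ i ∉ P0) ∧
      (∀ i, β i ≠ c) ∧ (∀ i, γ i ≠ c) ∧ (∀ i j, β i ≠ γ j) ∧ Function.Injective β ∧
      Function.Injective γ := by
  let e := P.orderEmbOfFin hP
  have he : ∀ i, e i ∈ P := fun i => Finset.orderEmbOfFin_mem P hP i
  have hinj : ∀ i j, e i = e j → i = j := fun i j hij => e.injective hij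
  let P0 : Finset (Fin h) := Finset.univ.image (fun i : Fin p => e ⟨i.val, by omega⟩)
  have hP0 : ∀ k : Fin (p + (2 * n + 1)), p ≤ k.val → e k ∉ P0 := by
    intro k hk hx
    simp only [P0, Finset.mem_image, Finset.mem_univ, true_and] at hx
    obtain ⟨i, hi⟩ := hx
    have := congrArg Fin.val (hinj _ _ hi)
    simp only at this
    omega
  refine ⟨P0, e ⟨p, by omega⟩, fun i => e ⟨p + 1 + i.val, by omega⟩,
    fun i => e ⟨p + 1 + n + i.val, by omega⟩, ?_, ?_, he _, ?_, fun i => he _, fun i => he _,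
    ?_, ?_, ?_, ?_, ?_, ?_, ?_⟩
  · rw [Finset.card_image_of_injective]
    · simp
    · intro i j hij
      have := hinj _ _ hij
      simp only [Fin.mk.injEq] at this
      exact Fin.ext this
  · intro x hx
    simp only [P0, Finset.mem_image, Finset.mem_univ, true_and] at hx
    obtain ⟨i, rfl⟩ := hx
    exact he _
  · exact hP0 _ (le_refl _)
  · intro k; exact hP0 _ (by simp only; omega)
  · intro k; exact hP0 _ (by simp only; omega)
  · intro i hi
    have := congrArg Fin.val (hinj _ _ hi)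
    simp only at this
    omega
  · intro i hi
    have := congrArg Fin.val (hinj _ _ hi)
    simp only at this
    omega
  · intro i j hi
    have := congrArg Fin.val (hinj _ _ hi)
    simp only at this
    omega
  · intro i j hi
    have := congrArg Fin.val (hinj _ _ hi)
    simp only at this
    exact Fin.ext (by omega)
  · intro i j hi
    have := congrArg Fin.val (hinj _ _ hi)
    simp only at this
    exact Fin.ext (by omega)

end Rel

section Alg

variable {Q : Type*}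

theorem sandwich_left {K g : Beh Q} (hK : Idem K) (h1 : K ⊙ g ⊙ K = g) : K ⊙ g = g := by
  rw [← h1, ← mul_assoc', ← mul_assoc', show K ⊙ K = K from hK]

theorem sandwich_right {K g : Beh Q} (hK : Idem K) (h1 : K ⊙ g ⊙ K = g) : g ⊙ K = g := by
  rw [← h1, mul_assoc', show K ⊙ K = K from hK]

theorem kept_self (g : Beh Q) (x : DS Q) : Kept g g x ↔ Rec g x := by
  unfold Kept Rec
  split_ifs <;> rfl

theorem wd_replicate_left {α : Type*} (c : α → Beh Q) (K : Beh Q) (w : List α)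
    (hw : K ⊙ wd c w = wd c w) (n : ℕ) (hn : 1 ≤ n) :
    K ⊙ wd c (List.replicate n w).flatten = wd c (List.replicate n w).flatten := by
  obtain ⟨n, rfl⟩ : ∃ k, n = k + 1 := ⟨n - 1, by omega⟩
  rw [List.replicate_succ, List.flatten_cons, wd_append, ← mul_assoc', hw]

theorem wd_replicate_right {α : Type*} (c : α → Beh Q) (K : Beh Q) (w : List α)
    (hw : wd c w ⊙ K = wd c w) (n : ℕ) (hn : 1 ≤ n) :
    wd c (List.replicate n w).flatten ⊙ K = wd c (List.replicate n w).flatten := by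
  obtain ⟨n, rfl⟩ : ∃ k, n = k + 1 := ⟨n - 1, by omega⟩
  rw [List.replicate_succ', List.flatten_append, List.flatten_cons, List.flatten_nil,
    List.append_nil, wd_append, mul_assoc', hw]

theorem kept_replicate {α : Type*} (c : α → Beh Q) {K : Beh Q} (hK : Idem K) (w : List α)
    (h1 : K ⊙ wd c w = wd c w) (h2 : wd c w ⊙ K = wd c w) {x : DS Q} (hx : Kept K (wd c w) x)
    (n : ℕ) (hn : 1 ≤ n) : Kept K (wd c (List.replicate n w).flatten) x := by
  obtain ⟨n, rfl⟩ : ∃ k, n = k + 1 := ⟨n - 1, by omega⟩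
  clear hn
  induction n with
  | zero => simpa using hx
  | succ n ih =>
    rw [List.replicate_succ, List.flatten_cons, wd_append]
    refine kept_mul ?_ ?_ hK hx ih
    · rw [h1, h2]
    · rw [wd_replicate_left c K w h1 _ (Nat.succ_pos n),
        wd_replicate_right c K w h2 _ (Nat.succ_pos n)]

end Alg

theorem claim_base {Q : Type*} [Finite Q] {h : ℕ} (c : Let h → Beh Q) (hs : Separates c) :
    Claim c 2 1 1 := by
  intro P hP z hrz hz
  obtain ⟨i, j, hij, rfl⟩ := Finset.card_eq_two.mp hP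
  refine ⟨i, by simp, j, by simp, hij, ?_⟩
  intro X hrX hX
  by_contra hcon
  have h0 : Cost (wd c z) (wd c X) = 0 := by omega
  have hle := le_of_cost_zero hz hX h0
  -- contexts
  have hsep := hs [letter (fun a b => a = i ∧ b = i)] z X [letter (fun a b => a = j ∧ b = j)]
    hX hle
  apply hsep
  · rintro ⟨a, d, had⟩
    simp only [wordRel_append, wordRel_letter, hrz, IdP] at had
    obtain ⟨b, ⟨b', ⟨rfl, rfl⟩, rfl, -⟩, h2, -⟩ := had
    exact hij h2
  · refine ⟨i, j, ?_⟩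
    rw [wordRel_append]
    refine ⟨j, ?_, (wordRel_letter _ _ _).2 ⟨rfl, rfl⟩⟩
    rw [wordRel_append]
    exact ⟨i, (wordRel_letter _ _ _).2 ⟨rfl, rfl⟩, by rw [hrX]; exact Or.inr ⟨rfl, rfl⟩⟩

theorem claim_step {Q : Type*} [Finite Q] {h : ℕ} (c : Let h → Beh Q) (p a b q : ℕ) (hp : 2 ≤ p)
    (hc : Claim c p a b) : Claim c (p + (2 * q + 1)) (q * a) (8 * b) := by
  classical
  intro P hP z hrz hz
  rcases Nat.eq_zero_or_pos (q * a) with h0 | hpos
  · obtain ⟨i, hi, j, hj, hij⟩ := Finset.one_lt_card.1 (show 1 < P.card by omega)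
    exact ⟨i, hi, j, hj, hij, fun X _ _ => by rw [h0]; exact Nat.zero_le _⟩
  by_contra hcon
  push Not at hcon
  have hX : ∀ i j : Fin h, i ∈ P → j ∈ P → i ≠ j → ∃ X : List (Let h),
      wordRel X = LinkP P i j ∧ wd c z ⊙ wd c X ⊙ wd c z = wd c X ∧
      8 * b * Cost (wd c z) (wd c X) < q * a := by
    intro i j hi hj hij
    exact hcon i hi j hj hij
  obtain ⟨P0, c0, β, γ, hP0, hP0P, hcP, hcP0, hβP, hγP, hβP0, hγP0, hβc, hγc, hβγ, hβi, hγi⟩ :=
    split_points P p q hP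
  choose X1 hX1r hX1z hX1l using fun i : Fin q => hX (β i) c0 (hβP i) hcP (hβc i)
  choose X2 hX2r hX2z hX2l using fun j : Fin q => hX c0 (γ j) hcP (hγP j) (hγc j).symm
  have hrX1 : ∀ i a d, wordRel (X1 i) a d ↔ LinkP P (β i) c0 a d := fun i a d => by rw [hX1r]
  have hrX2 : ∀ i a d, wordRel (X2 i) a d ↔ LinkP P c0 (γ i) a d := fun i a d => by rw [hX2r]
  have hrz' : ∀ a d, wordRel z a d ↔ IdP P a d := fun a d => by rw [hrz]
  set P1 : Finset (Fin h) := P.erase c0 with hP1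
  have hP1P : ∀ a, a ∈ P1 ↔ a ∈ P ∧ a ≠ c0 := by
    intro a; rw [hP1, Finset.mem_erase]; tauto
  have hβP1 : ∀ i, β i ∈ P1 := fun i => (hP1P _).2 ⟨hβP i, hβc i⟩
  have hγP1 : ∀ i, γ i ∈ P1 := fun i => (hP1P _).2 ⟨hγP i, hγc i⟩
  have hP0P1 : ∀ a ∈ P0, a ∈ P1 := fun a ha =>
    (hP1P _).2 ⟨hP0P ha, fun hac => hcP0 (hac ▸ ha)⟩
  -- the medium K over P1
  obtain ⟨e, he, hidem⟩ := exists_idem_pow c (z ++ [letter (IdP P1)] ++ z)
  set K : List (Let h) := (List.replicate e (z ++ [letter (IdP P1)] ++ z)).flatten with hK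
  have hzz : wd c z ⊙ wd c z = wd c z := hz
  have hzK : wd c z ⊙ wd c K = wd c K :=
    wd_replicate_left c _ _ (by rw [wd_append, wd_append, ← mul_assoc', ← mul_assoc', hzz]) e he
  have hKz : wd c K ⊙ wd c z = wd c K :=
    wd_replicate_right c _ _ (by rw [wd_append, wd_append, mul_assoc', hzz]) e he
  have hrK : ∀ a d, wordRel K a d ↔ IdP P1 a d := by
    refine wordRel_replicate _ _ ?_ (IdP_idem P1) e he
    intro a d
    simp only [wordRel_append, wordRel_letter, hrz', IdP]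
    constructor
    · rintro ⟨b, ⟨b', ⟨rfl, h1⟩, rfl, h2⟩, rfl, h3⟩
      exact ⟨rfl, h2⟩
    · rintro ⟨rfl, h1⟩
      have h2 := ((hP1P _).1 h1).1
      exact ⟨a, ⟨a, ⟨rfl, h2⟩, rfl, h1⟩, rfl, h2⟩
  have hKK : wd c K ⊙ wd c K = wd c K := hidem
  -- the V's
  have hrV : ∀ i j a d, wordRel (K ++ X1 i ++ X2 j ++ K) a d ↔ LinkP P1 (β i) (γ j) a d := by
    intro i j a d
    simp only [wordRel_append, hrK, hrX1, hrX2, IdP, LinkP]
    constructor
    · rintro ⟨b3, ⟨b2, ⟨b1, ⟨rfl, h1⟩, h2⟩, h3⟩, rfl, h4⟩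
      rcases h2 with ⟨rfl, h2⟩ | ⟨rfl, rfl⟩
      · rcases h3 with ⟨rfl, h3⟩ | ⟨rfl, rfl⟩
        · exact Or.inl ⟨rfl, h1⟩
        · exact absurd rfl ((hP1P _).1 h1).2
      · rcases h3 with ⟨rfl, h3⟩ | ⟨-, rfl⟩
        · exact absurd rfl ((hP1P _).1 h4).2
        · exact Or.inr ⟨rfl, rfl⟩
    · rintro (⟨rfl, h1⟩ | ⟨rfl, rfl⟩)
      · have h2 := ((hP1P _).1 h1).1
        exact ⟨a, ⟨a, ⟨a, ⟨rfl, h1⟩, Or.inl ⟨rfl, h2⟩⟩, Or.inl ⟨rfl, h2⟩⟩, rfl, h1⟩
      · exact ⟨γ j, ⟨c0, ⟨β i, ⟨rfl, hβP1 i⟩, Or.inr ⟨rfl, rfl⟩⟩, Or.inr ⟨rfl, rfl⟩⟩, rfl, hγP1 j⟩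
  set T : Set (DS Q) := {x | Rec (wd c K) x ∧
    ∀ i j, Kept (wd c K) (wd c K ⊙ wd c (X1 i) ⊙ wd c (X2 j) ⊙ wd c K) x} with hT
  -- good medium for P0
  obtain ⟨K0, hrK0e, hK0, hgood⟩ := exists_good c P0
  have hrK0 : ∀ a d, wordRel K0 a d ↔ IdP P0 a d := fun a d => by rw [hrK0e]
  have hK0K0 : wd c K0 ⊙ wd c K0 = wd c K0 := hK0
  obtain ⟨s, hs, t, ht, hst, hcost⟩ := hc P0 hP0 K0 hrK0e hK0
  -- the chain
  have hchain : ∀ A : Finset (Fin q × Fin q), ∃ g : List (Let h), Idem (wd c g) ∧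
      wd c K ⊙ wd c g = wd c g ∧ wd c g ⊙ wd c K = wd c g ∧
      (∀ a d, wordRel g a d ↔ relA P1 β γ A a d) ∧ (∀ x ∈ T, Kept (wd c K) (wd c g) x) ∧
      2 * b * (Psi true T (wd c g) + Psi false T (wd c g)) + A.card * a ≤
        2 * b * (Psi true T (wd c K) + Psi false T (wd c K)) := by
    intro A
    induction A using Finset.induction_on with
    | empty =>
      refine ⟨K, hidem, hidem, hidem, ?_, ?_, by simp⟩
      · intro a d; rw [hrK]; simp [relA, IdP]
      · intro x hx; exact (kept_self _ x).2 hx.1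
    | insert r A hr ih =>
      obtain ⟨i, j⟩ := r
      obtain ⟨g, hg, hKg, hgK, hrg, hTg, hsum⟩ := ih
      have hgg : wd c g ⊙ wd c g = wd c g := hg
      have hrVij := hrV i j
      have hVwd : wd c (K ++ X1 i ++ X2 j ++ K) =
          wd c K ⊙ wd c (X1 i) ⊙ wd c (X2 j) ⊙ wd c K := by
        rw [wd_append, wd_append, wd_append]
      set V : List (Let h) := K ++ X1 i ++ X2 j ++ K with hV
      have hVK : wd c K ⊙ wd c V = wd c V := by
        rw [hVwd, ← mul_assoc', ← mul_assoc', ← mul_assoc', hKK]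
      have hVK' : wd c V ⊙ wd c K = wd c V := by
        rw [hVwd, mul_assoc', hKK]
      obtain ⟨e', he', hidem'⟩ := exists_idem_pow c (g ++ V ++ g)
      have hwd3 : wd c (g ++ V ++ g) = wd c g ⊙ wd c V ⊙ wd c g := by
        rw [wd_append, wd_append]
      have hKw : wd c K ⊙ wd c (g ++ V ++ g) = wd c (g ++ V ++ g) := by
        rw [hwd3, ← mul_assoc', ← mul_assoc', hKg]
      have hwK : wd c (g ++ V ++ g) ⊙ wd c K = wd c (g ++ V ++ g) := by
        rw [hwd3, mul_assoc', hgK]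
      set f : List (Let h) := (List.replicate e' (g ++ V ++ g)).flatten with hf
      have hff : wd c f ⊙ wd c f = wd c f := hidem'
      have hgf : wd c g ⊙ wd c f = wd c f :=
        wd_replicate_left c _ _ (by rw [hwd3, ← mul_assoc', ← mul_assoc', hgg]) e' he'
      have hfg : wd c f ⊙ wd c g = wd c f :=
        wd_replicate_right c _ _ (by rw [hwd3, mul_assoc', hgg]) e' he'
      have hKf : wd c K ⊙ wd c f = wd c f := wd_replicate_left c _ _ hKw e' he'
      have hfK : wd c f ⊙ wd c K = wd c f := wd_replicate_right c _ _ hwK e' he'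
      have hrf : ∀ a d, wordRel f a d ↔ relA P1 β γ (insert (i, j) A) a d := by
        refine wordRel_replicate _ _ ?_ (relA_trans hβP1 hβγ _) e' he'
        intro a d
        simp only [wordRel_append, hrg, hrVij]
        constructor
        · rintro ⟨b2, ⟨b1, h1, h2⟩, h3⟩
          rcases h2 with ⟨rfl, h2⟩ | ⟨rfl, rfl⟩
          · have := (relA_trans hβP1 hβγ A a d).1 ⟨b1, h1, h3⟩
            rcases this with h4 | ⟨r, hr', h4⟩
            · exact Or.inl h4
            · exact Or.inr ⟨r, Finset.mem_insert_of_mem hr', h4⟩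
          · rcases h1 with ⟨rfl, h1⟩ | ⟨r, hr', rfl, h1⟩
            · rcases h3 with ⟨rfl, h3⟩ | ⟨r, hr', h3, rfl⟩
              · exact Or.inr ⟨(i, j), Finset.mem_insert_self _ _, rfl, rfl⟩
              · exact absurd h3.symm (hβγ _ _)
            · exact absurd h1 (hβγ _ _)
        · rintro (⟨rfl, h1⟩ | ⟨r, hr', rfl, rfl⟩)
          · exact ⟨a, ⟨a, Or.inl ⟨rfl, h1⟩, Or.inl ⟨rfl, h1⟩⟩, Or.inl ⟨rfl, h1⟩⟩
          · rcases Finset.mem_insert.1 hr' with rfl | hr''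
            · exact ⟨γ j, ⟨β i, Or.inl ⟨rfl, hβP1 _⟩, Or.inr ⟨rfl, rfl⟩⟩, Or.inl ⟨rfl, hγP1 _⟩⟩
            · exact ⟨γ r.2, ⟨γ r.2, Or.inr ⟨r, hr'', rfl, rfl⟩, Or.inl ⟨rfl, hγP1 _⟩⟩,
                Or.inl ⟨rfl, hγP1 _⟩⟩
      have hTf : ∀ x ∈ T, Kept (wd c K) (wd c f) x := by
        intro x hx
        have hxV : Kept (wd c K) (wd c V) x := by rw [hVwd]; exact hx.2 i j
        have h1 : Kept (wd c K) (wd c g ⊙ wd c V) x :=
          kept_mul (by rw [hKg, hgK]) (by rw [hVK, hVK']) hidem (hTg x hx) hxV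
        have h2 : Kept (wd c K) (wd c g ⊙ wd c V ⊙ wd c g) x :=
          kept_mul (by rw [← mul_assoc', hKg, mul_assoc', hVK']) (by rw [hKg, hgK]) hidem h1
            (hTg x hx)
        exact kept_replicate c hidem _ hKw hwK (by rw [hwd3]; exact h2) e' he'
      have hgfg : wd c g ⊙ wd c f ⊙ wd c g = wd c f := by rw [hgf, hfg]
      have hKgK : wd c K ⊙ wd c g ⊙ wd c K = wd c g := by rw [hKg, hgK]
      have hTT : ∀ x ∈ T, Rec (wd c g) x ∧ Kept (wd c g) (wd c f) x := by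
        intro x hx
        refine ⟨(kept_self _ x).1 ?_, ?_⟩
        · exact kept_of_kept hidem hKgK (by rw [hgg, hgg]) (hTg x hx)
        · exact kept_of_kept hidem hKgK hgfg (hTf x hx)
      have hdrop1 := drop true T hg hidem' hgfg (fun x hx _ => hTT x hx)
      have hdrop2 := drop false T hg hidem' hgfg (fun x hx _ => hTT x hx)
      have hcl := cost_le_lostT (wd c g) (wd c f) hg
      -- the context
      set u : List (Let h) := [letter (LinkP P0 s (β i))] with hu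
      set v : List (Let h) := [letter (LinkP P0 (γ j) t)] with hv
      have hru : ∀ a d, wordRel u a d ↔ LinkP P0 s (β i) a d := wordRel_letter _
      have hrv : ∀ a d, wordRel v a d ↔ LinkP P0 (γ j) t a d := wordRel_letter _
      have hPγ : ∀ a ∈ P0, ∀ k, a ≠ γ k := fun a ha k hk => hγP0 k (hk ▸ ha)
      have hPβ : ∀ a ∈ P0, ∀ k, a ≠ β k := fun a ha k hk => hβP0 k (hk ▸ ha)
      have hWg : ∀ a d, wordRel (u ++ g ++ v) a d ↔ IdP P0 a d := by
        intro a d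
        simp only [wordRel_append, hru, hrv, hrg, IdP, LinkP]
        constructor
        · rintro ⟨b3, ⟨b2, h2, h3⟩, h4⟩
          rcases h2 with ⟨rfl, h2⟩ | ⟨rfl, rfl⟩
          · rcases h3 with ⟨rfl, h3⟩ | ⟨r, hr', h3, rfl⟩
            · rcases h4 with ⟨rfl, h4⟩ | ⟨h4, rfl⟩
              · exact ⟨rfl, h2⟩
              · exact absurd h4 (hPγ _ h2 _)
            · exact absurd h3 (hPβ _ h2 _)
          · rcases h3 with ⟨rfl, h3⟩ | ⟨r, hr', h3, rfl⟩
            · rcases h4 with ⟨rfl, h4⟩ | ⟨h4, rfl⟩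
              · exact absurd h4 (hβP0 _)
              · exact absurd h4 (hβγ _ _)
            · rcases h4 with ⟨rfl, h4⟩ | ⟨h4, rfl⟩
              · exact absurd h4 (hγP0 _)
              · exfalso
                apply hr
                have e1 := hβi h3
                have e2 := hγi h4
                have : r = (i, j) := Prod.ext e1.symm e2
                exact this ▸ hr'
        · rintro ⟨rfl, h1⟩
          exact ⟨a, ⟨a, Or.inl ⟨rfl, h1⟩, Or.inl ⟨rfl, hP0P1 a h1⟩⟩, Or.inl ⟨rfl, h1⟩⟩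
      have hWf : ∀ a d, wordRel (u ++ f ++ v) a d ↔ LinkP P0 s t a d := by
        intro a d
        simp only [wordRel_append, hru, hrv, hrf, LinkP]
        constructor
        · rintro ⟨b3, ⟨b2, h2, h3⟩, h4⟩
          rcases h2 with ⟨rfl, h2⟩ | ⟨rfl, rfl⟩
          · rcases h3 with ⟨rfl, h3⟩ | ⟨r, hr', h3, rfl⟩
            · rcases h4 with ⟨rfl, h4⟩ | ⟨h4, rfl⟩
              · exact Or.inl ⟨rfl, h2⟩
              · exact absurd h4 (hPγ _ h2 _)
            · exact absurd h3 (hPβ _ h2 _)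
          · rcases h3 with ⟨rfl, h3⟩ | ⟨r, hr', h3, rfl⟩
            · rcases h4 with ⟨rfl, h4⟩ | ⟨h4, rfl⟩
              · exact absurd h4 (hβP0 _)
              · exact absurd h4 (hβγ _ _)
            · rcases h4 with ⟨rfl, h4⟩ | ⟨h4, rfl⟩
              · exact absurd h4 (hγP0 _)
              · exact Or.inr ⟨rfl, rfl⟩
        · rintro (⟨rfl, h1⟩ | ⟨rfl, rfl⟩)
          · exact ⟨a, ⟨a, Or.inl ⟨rfl, h1⟩, Or.inl ⟨rfl, hP0P1 a h1⟩⟩, Or.inl ⟨rfl, h1⟩⟩
          · exact ⟨γ j, ⟨β i, Or.inr ⟨rfl, rfl⟩,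
              Or.inr ⟨(i, j), Finset.mem_insert_self _ _, rfl, rfl⟩⟩, Or.inr ⟨rfl, rfl⟩⟩
      obtain ⟨w', hrw'e, hw'⟩ := hgood (u ++ g ++ v) (by
        funext a d; exact propext (hWg a d))
      have hrw' : ∀ a d, wordRel w' a d ↔ IdP P0 a d := fun a d => by rw [hrw'e]
      rw [wd_append, wd_append] at hw'
      have hinj : Cost (wd c K0)
          ((wd c K0 ⊙ wd c u ⊙ wd c g) ⊙ wd c f ⊙ (wd c g ⊙ (wd c v ⊙ wd c K0 ⊙ wd c w' ⊙ wd c K0)))
          ≤ Cost (wd c g) (wd c f) := by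
        refine inj hK0 hg ?_ ?_ ?_ ?_ ?_ hgfg
        · rw [← mul_assoc', ← mul_assoc', hK0K0]
        · rw [mul_assoc', hgg]
        · rw [← mul_assoc', hgg]
        · rw [mul_assoc', mul_assoc', hK0K0]
        · calc wd c K0 ⊙ wd c u ⊙ wd c g ⊙ (wd c g ⊙ (wd c v ⊙ wd c K0 ⊙ wd c w' ⊙ wd c K0))
              = wd c K0 ⊙ (wd c u ⊙ wd c g ⊙ wd c v) ⊙ wd c K0 ⊙ wd c w' ⊙ wd c K0 := by
                simp only [← mul_assoc']
                rw [mul_assoc' (wd c K0 ⊙ wd c u) (wd c g) (wd c g), hgg]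
            _ = wd c K0 := hw'
      have hXwd : wd c (K0 ++ u ++ g ++ f ++ (g ++ (v ++ K0 ++ w' ++ K0))) =
          (wd c K0 ⊙ wd c u ⊙ wd c g) ⊙ wd c f ⊙
            (wd c g ⊙ (wd c v ⊙ wd c K0 ⊙ wd c w' ⊙ wd c K0)) := by
        simp only [wd_append]
      have hrX' : ∀ a d, wordRel (K0 ++ u ++ g ++ f ++ (g ++ (v ++ K0 ++ w' ++ K0))) a d ↔
          LinkP P0 s t a d := by
        have hgfg' : ∀ a d, wordRel (g ++ f ++ g) a d ↔ wordRel f a d := by
          intro a d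
          rw [hrf a d]
          simp only [wordRel_append, hrg, hrf]
          constructor
          · rintro ⟨b2, ⟨b1, h1, h2⟩, h3⟩
            have m1 : ∀ x y, relA P1 β γ A x y → relA P1 β γ (insert (i, j) A) x y := by
              rintro x y (h | ⟨r, hr', h⟩)
              · exact Or.inl h
              · exact Or.inr ⟨r, Finset.mem_insert_of_mem hr', h⟩
            exact (relA_trans hβP1 hβγ _ a d).1
              ⟨b2, (relA_trans hβP1 hβγ _ a b2).1 ⟨b1, m1 _ _ h1, h2⟩, m1 _ _ h3⟩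
          · rintro (⟨rfl, h1⟩ | ⟨r, hr', rfl, rfl⟩)
            · exact ⟨a, ⟨a, Or.inl ⟨rfl, h1⟩, Or.inl ⟨rfl, h1⟩⟩, Or.inl ⟨rfl, h1⟩⟩
            · exact ⟨γ r.2, ⟨β r.1, Or.inl ⟨rfl, hβP1 _⟩, Or.inr ⟨r, hr', rfl, rfl⟩⟩,
                Or.inl ⟨rfl, hγP1 _⟩⟩
        intro a d
        have e1 : K0 ++ u ++ g ++ f ++ (g ++ (v ++ K0 ++ w' ++ K0)) =
            K0 ++ (u ++ (g ++ f ++ g) ++ v) ++ (K0 ++ w' ++ K0) := by
          simp only [List.append_assoc]
        have e2 : ∀ a d, wordRel (u ++ (g ++ f ++ g) ++ v) a d ↔ LinkP P0 s t a d := by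
          intro a d
          rw [← hWf a d]
          simp only [wordRel_append u, wordRel_append _ v, hgfg']
        rw [e1, wordRel_append]
        simp only [wordRel_append K0, wordRel_append _ K0, e2, hrK0, hrw', IdP]
        unfold LinkP
        constructor
        · rintro ⟨b1, ⟨b2, ⟨rfl, h1⟩, h2⟩, b3, ⟨b4, ⟨rfl, h4⟩, rfl, h5⟩, rfl, h6⟩
          exact h2
        · rintro (⟨rfl, h1⟩ | ⟨rfl, rfl⟩)
          · exact ⟨a, ⟨a, ⟨rfl, h1⟩, Or.inl ⟨rfl, h1⟩⟩, a, ⟨a, ⟨rfl, h1⟩, rfl, h1⟩, rfl, h1⟩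
          · exact ⟨d, ⟨a, ⟨rfl, hs⟩, Or.inr ⟨rfl, rfl⟩⟩, d, ⟨d, ⟨rfl, ht⟩, rfl, ht⟩, rfl, ht⟩
      have hLX' := hcost _ (by funext a d; exact propext (hrX' a d)) (by
        rw [hXwd]
        simp only [← mul_assoc']
        rw [hK0K0, mul_assoc' _ (wd c K0) (wd c K0), hK0K0])
      rw [hXwd] at hLX'
      have hL3 : a ≤ b * (LostT true (wd c g) (wd c f) + LostT false (wd c g) (wd c f)) :=
        hLX'.trans (Nat.mul_le_mul_left _ (hinj.trans hcl))
      refine ⟨f, hidem', hKf, hfK, hrf, hTf, ?_⟩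
      rw [Finset.card_insert_of_notMem hr]
      have hmul : b * (2 * (Psi true T (wd c f) + Psi false T (wd c f)) +
          (LostT true (wd c g) (wd c f) + LostT false (wd c g) (wd c f))) ≤
          b * (2 * (Psi true T (wd c g) + Psi false T (wd c g))) :=
        Nat.mul_le_mul_left _ (by omega)
      nlinarith
  obtain ⟨g, -, -, -, -, -, hfin⟩ := hchain Finset.univ
  have hcount := count2 hidem hz hKz hzK (fun i => wd c (X1 i)) (fun j => wd c (X2 j))
    hX1z hX2z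
  have hset : {x | Rec (wd c K) x ∧ x ∉ T} = {x | Rec (wd c K) x ∧ ∃ i j,
      ¬ Kept (wd c K) (wd c K ⊙ wd c (X1 i) ⊙ wd c (X2 j) ⊙ wd c K) x} := by
    ext x
    simp only [hT, Set.mem_ofPred_eq, not_and, not_forall]
    constructor
    · rintro ⟨h1, h2⟩; exact ⟨h1, h2 h1⟩
    · rintro ⟨h1, h2⟩; exact ⟨h1, fun _ => h2⟩
  have hp1 := psi_le_bad true hidem T
  have hp2 := psi_le_bad false hidem T
  rw [hset] at hp1 hp2
  have hs1 : 8 * b * (∑ i, Cost (wd c z) (wd c (X1 i))) ≤ q * (q * a - 1) := by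
    rw [Finset.mul_sum]
    calc ∑ i, 8 * b * Cost (wd c z) (wd c (X1 i)) ≤ ∑ _i : Fin q, (q * a - 1) :=
          Finset.sum_le_sum (fun i _ => by have := hX1l i; omega)
      _ = q * (q * a - 1) := by simp
  have hs2 : 8 * b * (∑ i, Cost (wd c z) (wd c (X2 i))) ≤ q * (q * a - 1) := by
    rw [Finset.mul_sum]
    calc ∑ i, 8 * b * Cost (wd c z) (wd c (X2 i)) ≤ ∑ _i : Fin q, (q * a - 1) :=
          Finset.sum_le_sum (fun i _ => by have := hX2l i; omega)
      _ = q * (q * a - 1) := by simp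
  have hcard : (Finset.univ : Finset (Fin q × Fin q)).card = q * q := by
    simp
  rw [hcard] at hfin
  have hq : 0 < q := Nat.pos_of_mul_pos_right hpos |> fun _ => by
    rcases Nat.eq_zero_or_pos q with h | h
    · rw [h] at hpos; simp at hpos
    · exact h
  set N := (mcls (wd c K) '' {x | Rec (wd c K) x ∧ ∃ i j,
      ¬ Kept (wd c K) (wd c K ⊙ wd c (X1 i) ⊙ wd c (X2 j) ⊙ wd c K) x}).ncard with hN
  set S1 := ∑ i, Cost (wd c z) (wd c (X1 i)) with hS1
  set S2 := ∑ j, Cost (wd c z) (wd c (X2 j)) with hS2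
  have k1 : q * q * a ≤ 2 * b * (2 * N) := by
    refine (Nat.le_add_left _ _).trans (hfin.trans (Nat.mul_le_mul_left _ ?_))
    omega
  have k2 : 2 * b * (2 * N) ≤ 2 * b * (2 * (S1 + S2)) :=
    Nat.mul_le_mul_left _ (Nat.mul_le_mul_left _ hcount)
  have k3 : 2 * (2 * b * (2 * (S1 + S2))) ≤ 2 * (q * (q * a - 1)) := by
    calc 2 * (2 * b * (2 * (S1 + S2))) = 8 * b * S1 + 8 * b * S2 := by ring
      _ ≤ q * (q * a - 1) + q * (q * a - 1) := Nat.add_le_add hs1 hs2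
      _ = 2 * (q * (q * a - 1)) := by ring
  have k4 : q * (q * a) ≤ q * (q * a - 1) := by
    have : q * q * a = q * (q * a) := by ring
    omega
  have k5 := Nat.le_of_mul_le_mul_left k4 hq
  omega

end Crest.Agent.R294
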