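import Crest.Agent.R294.GoodWd
import Crest.Agent.R294.Main

/-!
R294: the core theorem from the base and the step of `Claim`.
-/

set_option autoImplicit false

namespace Crest.Agent.R294

open Crest.TwoWay

namespace GW

/-- `Cost` is at most the number of directed states. -/
theorem cost_le_aux {Q : Type*} [Fintype Q] (g f : Beh Q) : Cost g f ≤ 2 * Fintype.card Q := by
  classical
  unfold Cost
  calc (mcls g '' Lost g f).ncard ≤ (Lost g f).ncard := Set.ncard_image_le (Set.toFinite _)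
    _ ≤ (Set.univ : Set (DS Q)).ncard := Set.ncard_le_ncard (Set.subset_univ _) (Set.toFinite _)
    _ = 2 * Fintype.card Q := by
        rw [Set.ncard_univ, Nat.card_eq_fintype_card, Fintype.card_prod, Fintype.card_bool]

theorem sandwich {Q : Type*} (z x : Beh Q) (hz : Idem z) :
    z ⊙ (z ⊙ x ⊙ z) ⊙ z = z ⊙ x ⊙ z := by
  have e : z ⊙ z = z := hz
  calc z ⊙ (z ⊙ x ⊙ z) ⊙ z = (z ⊙ z) ⊙ x ⊙ (z ⊙ z) := by
        simp only [mul_assoc']
    _ = z ⊙ x ⊙ z := by rw [e]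

theorem wordRel_link {h : ℕ} (P : Finset (Fin h)) (i j : Fin h) (hi : i ∈ P) (hj : j ∈ P)
    (z : List (Let h)) (hz : wordRel z = IdP P) :
    wordRel (z ++ [letter (LinkP P i j)] ++ z) = LinkP P i j := by
  rw [wordRel_app, wordRel_app, wordRel_let, hz]
  funext a c
  apply propext
  constructor
  · rintro ⟨b, ⟨d, ⟨rfl, h1⟩, h2⟩, ⟨rfl, h3⟩⟩
    exact h2
  · intro hL
    rcases hL with ⟨rfl, h1⟩ | ⟨rfl, rfl⟩
    · exact ⟨a, ⟨a, ⟨rfl, h1⟩, Or.inl ⟨rfl, h1⟩⟩, ⟨rfl, h1⟩⟩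
    · exact ⟨c, ⟨a, ⟨rfl, hi⟩, Or.inr ⟨rfl, rfl⟩⟩, ⟨rfl, hj⟩⟩

theorem claim_iter {Q : Type*} {h : ℕ} (c : Let h → Beh Q) (q : ℕ)
    (hb : Claim c 2 1 1)
    (hs : ∀ p a b, 2 ≤ p → Claim c p a b → Claim c (p + (2 * q + 1)) (q * a) (8 * b)) :
    ∀ k, Claim c (2 + k * (2 * q + 1)) (q ^ k) (8 ^ k) := by
  intro k
  induction k with
  | zero => simpa using hb
  | succ k ih =>
    have := hs _ _ _ (by omega) ih
    have e1 : 2 + k * (2 * q + 1) + (2 * q + 1) = 2 + (k + 1) * (2 * q + 1) := by ring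
    rw [e1, ← pow_succ', ← pow_succ'] at this
    exact this

theorem core_of {Q : Type*} [Fintype Q] {h : ℕ} (c : Let h → Beh Q) (q k : ℕ)
    (hk : 2 + k * (2 * q + 1) ≤ h) (hb : Claim c 2 1 1)
    (hs : ∀ p a b, 2 ≤ p → Claim c p a b → Claim c (p + (2 * q + 1)) (q * a) (8 * b)) :
    q ^ k ≤ 8 ^ k * (2 * Fintype.card Q) := by
  obtain ⟨P, -, hP⟩ := Finset.exists_subset_card_eq (s := (Finset.univ : Finset (Fin h)))
    (n := 2 + k * (2 * q + 1)) (by rw [Finset.card_univ, Fintype.card_fin]; exact hk)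
  obtain ⟨z, hz, hI⟩ := exists_idem_word c P
  obtain ⟨i, hi, j, hj, -, hX⟩ := claim_iter c q hb hs k P hP z hz hI
  have h1 := hX (z ++ [letter (LinkP P i j)] ++ z) (wordRel_link P i j hi hj z hz) (by
    rw [wd_append, wd_append]
    exact sandwich _ _ hI)
  exact h1.trans (Nat.mul_le_mul_left _ (cost_le_aux _ _))

end GW

/-- the core theorem used by the final files -/
theorem core {Q : Type*} [Fintype Q] {h : ℕ} (c : Let h → Beh Q) (hs : Separates c) (q k : ℕ)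
    (hk : 2 + k * (2 * q + 1) ≤ h) : q ^ k ≤ 8 ^ k * (2 * Fintype.card Q) :=
  GW.core_of c q k hk (claim_base c hs) (fun p a b hp hc => claim_step c p a b q hp hc)

end Crest.Agent.R294
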