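import Mathlib
import Crest.Prelude.Def_TwoWay

/-!
Row 294 (S0444, S0445).  Definitions of the block calculus.

A "behaviour" is a relation on directed states `DS Q = Bool × Q` (`true` = moving right):
`p x y` = "the head enters the block `p` in the directed state `x` and leaves it in the
directed state `y`".
-/

set_option autoImplicit false

namespace Crest.Agent.R294

/-- directed states, `true` = moving right -/
abbrev DS (Q : Type*) := Bool × Q

/-- behaviour of a block -/
abbrev Beh (Q : Type*) := DS Q → DS Q → Prop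

section Defs

variable {Q : Type*}

/-- at the boundary `p | q` the block entered by the directed state `x`, applied -/
def sel (p q : Beh Q) (x y : DS Q) : Prop := if x.1 = true then q x y else p x y

/-- reflection step at the boundary `p | q` -/
def Refl (p q : Beh Q) (x y : DS Q) : Prop := x.1 ≠ y.1 ∧ sel p q x y

/-- start at the boundary `p | q` in directed state `x`, leave the pair at the outside in `y` -/
def Mid (p q : Beh Q) (x y : DS Q) : Prop :=
  ∃ x', Relation.ReflTransGen (Refl p q) x x' ∧ x'.1 = y.1 ∧ sel p q x' y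

/-- concatenation of blocks -/
def mul (p q : Beh Q) (x y : DS Q) : Prop :=
  (x.1 = true ∧ ((y.1 = false ∧ p x y) ∨ ∃ x1, x1.1 = true ∧ p x x1 ∧ Mid p q x1 y)) ∨
  (x.1 = false ∧ ((y.1 = true ∧ q x y) ∨ ∃ x1, x1.1 = false ∧ q x x1 ∧ Mid p q x1 y))

@[inherit_doc] scoped infixl:70 " ⊙ " => mul

/-- the empty block -/
def one : Beh Q := fun x y => x = y

/-- mirror image of a directed state -/
def flip (x : DS Q) : DS Q := (!x.1, x.2)

/-- mirror image of a behaviour: `rev (p ⊙ q) = rev q ⊙ rev p` -/
def rev (p : Beh Q) : Beh Q := fun x y => p (flip x) (flip y)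

/-- `g ⊙ g = g` -/
def Idem (g : Beh Q) : Prop := g ⊙ g = g

/-- `x` (recurrent for `g`) is kept by `f`; used for `f = g ⊙ f ⊙ g` -/
def Kept (g f : Beh Q) (x : DS Q) : Prop := if x.1 = true then Mid g f x x else Mid f g x x

/-- recurrent directed states of `g` -/
def Rec (g : Beh Q) (x : DS Q) : Prop := Mid g g x x

/-- recurrent directed states of `g` lost by `f` -/
def Lost (g f : Beh Q) : Set (DS Q) := {x | Rec g x ∧ ¬ Kept g f x}

/-- mixed class of `x` (both directions) -/
def mcls (g : Beh Q) (x : DS Q) : Set (DS Q) := {y | Mid g g x y ∧ Mid g g y x}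

/-- typed class of `x` (same direction) -/
def tcls (g : Beh Q) (x : DS Q) : Set (DS Q) := {y | y.1 = x.1 ∧ Mid g g x y ∧ Mid g g y x}

/-- number of mixed classes of `g` containing a state lost by `f` -/
noncomputable def Cost (g f : Beh Q) : ℕ := (mcls g '' Lost g f).ncard

/-- number of typed classes of `g` of direction `d` disjoint from `T0` -/
noncomputable def Psi (d : Bool) (T0 : Set (DS Q)) (g : Beh Q) : ℕ :=
  (tcls g '' {x | x.1 = d ∧ Rec g x ∧ Disjoint (tcls g x) T0}).ncard

/-- number of typed classes of direction `d` of `g` lost by `f` -/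
noncomputable def LostT (d : Bool) (g f : Beh Q) : ℕ :=
  (tcls g '' {x | x.1 = d ∧ x ∈ Lost g f}).ncard

/-- behaviour of a word, from behaviours of the letters -/
def wd {α : Type*} (c : α → Beh Q) (w : List α) : Beh Q := (w.map c).foldr mul one

end Defs

/-! ### relation side -/

/-- letters of the liveness alphabet -/
abbrev Let (h : ℕ) := Fin h → Fin h → Bool

/-- a relation as a letter -/
noncomputable def letter {h : ℕ} (R : Fin h → Fin h → Prop) : Let h :=
  open Classical in fun a b => decide (R a b)

/-- partial identity -/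
def IdP {h : ℕ} (P : Finset (Fin h)) : Fin h → Fin h → Prop := fun a b => a = b ∧ a ∈ P

/-- partial identity plus one pair -/
def LinkP {h : ℕ} (P : Finset (Fin h)) (i j : Fin h) : Fin h → Fin h → Prop :=
  fun a b => (a = b ∧ a ∈ P) ∨ (a = i ∧ b = j)

/-- The hypothesis on the letter behaviours that both machine types satisfy. -/
def Separates {h : ℕ} {Q : Type*} (c : Let h → Beh Q) : Prop :=
  ∀ u z X v : List (Let h),
    mul (mul (wd c z) (wd c X)) (wd c z) = wd c X →
    (∀ x y, wd c z x y → wd c X x y) →
    u ++ z ++ v ∉ Crest.TwoWay.liveness h → u ++ X ++ v ∉ Crest.TwoWay.liveness h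

/-- `Claim c p a b`: every idempotent word over `I_P`, `|P| = p`, has an expensive pair -/
def Claim {h : ℕ} {Q : Type*} (c : Let h → Beh Q) (p a b : ℕ) : Prop :=
  ∀ P : Finset (Fin h), P.card = p → ∀ z : List (Let h),
    Crest.TwoWay.wordRel z = IdP P → Idem (wd c z) →
    ∃ i ∈ P, ∃ j ∈ P, i ≠ j ∧ ∀ X : List (Let h),
      Crest.TwoWay.wordRel X = LinkP P i j →
      mul (mul (wd c z) (wd c X)) (wd c z) = wd c X →
      a ≤ b * Cost (wd c z) (wd c X)

end Crest.Agent.R294
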