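import Crest.Prelude.Def_TwoWay

/-!
R294: forces the generation of the equation lemmas of prelude definitions in one common module
(so that no two modules of the import closure generate them independently).
-/

set_option autoImplicit false

namespace Crest.Agent.R294

open Crest.TwoWay

theorem eqns_wordRel_nil {h : ℕ} (a b : Fin h) : wordRel [] a b ↔ a = b := by
  simp only [wordRel]

theorem eqns_wordRel_cons {h : ℕ} (R : Fin h → Fin h → Bool) (w : List (Fin h → Fin h → Bool))
    (a c : Fin h) : wordRel (R :: w) a c ↔ ∃ b, R a b = true ∧ wordRel w b c := by
  simp only [wordRel]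

theorem eqns_wordRel_unfold {h : ℕ} (R : Fin h → Fin h → Bool) (w : List (Fin h → Fin h → Bool))
    (a c : Fin h) : wordRel (R :: w) a c ↔ ∃ b, R a b = true ∧ wordRel w b c := by
  constructor
  · intro h
    unfold wordRel at h
    exact h
  · intro h
    unfold wordRel
    exact h

theorem eqns_wordRel_rw {h : ℕ} (a b : Fin h) (hab : a = b) : wordRel [] a b := by
  rw [wordRel]
  exact hab

end Crest.Agent.R294
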