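import Crest.Agent.R294.Eqns

/-!
R294: the easy halves of S0444 / S0445: a one-pass nondeterministic automaton with `N ≥ h + 2`
states and no left moves recognizing one-way liveness on `h` points.
-/

set_option autoImplicit false

namespace Crest.Agent.R294

open Crest.TwoWay

/-- the one-pass automaton on `Fin N`, `h + 2 ≤ N`: states `0..h-1` are points, `h` is the start
state, `h + 1` is the accepting state. -/
def liveNFA (h N : ℕ) (hN : h + 2 ≤ N) : TwoWayNFA (Fin h → Fin h → Bool) (Fin N) where
  start := ⟨h, by omega⟩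
  accept := {q | q.val = h + 1}
  step := fun q c =>
    match c with
    | Cell.leftEnd => {p | q.val = h ∧ p.1.val < h ∧ p.2 = HeadMove.moveRight}
    | Cell.letter R => {p | ∃ (hq : q.val < h) (hp : p.1.val < h),
        R ⟨q.val, hq⟩ ⟨p.1.val, hp⟩ = true ∧ p.2 = HeadMove.moveRight}
    | Cell.rightEnd => {p | q.val < h ∧ p.1.val = h + 1 ∧ p.2 = HeadMove.stay}

theorem liveNFA_noLeft (h N : ℕ) (hN : h + 2 ≤ N) : (liveNFA h N hN).NoLeftMoves := by
  intro q a p hp
  cases a with
  | leftEnd =>
    obtain ⟨_, _, h3⟩ := hp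
    rw [h3]; intro hc; cases hc
  | letter R =>
    obtain ⟨_, _, _, h3⟩ := hp
    rw [h3]; intro hc; cases hc
  | rightEnd =>
    obtain ⟨_, _, h3⟩ := hp
    rw [h3]; intro hc; cases hc

theorem scan_zero {α : Type*} (w : List α) : scan w 0 = Cell.leftEnd := by
  simp [scan]

theorem scan_succ {α : Type*} (w : List α) (i : ℕ) (hi : i < w.length) :
    scan w (i + 1) = Cell.letter w[i] := by
  simp [scan, hi]

theorem scan_last {α : Type*} (w : List α) : scan w (w.length + 1) = Cell.rightEnd := by
  simp [scan]

theorem wordRel_snoc {h : ℕ} (w : List (Fin h → Fin h → Bool)) (R : Fin h → Fin h → Bool)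
    (a c : Fin h) : wordRel (w ++ [R]) a c ↔ ∃ b, wordRel w a b ∧ R b c = true := by
  induction w generalizing a with
  | nil =>
    constructor
    · rintro ⟨b, hb, hbc⟩
      have : b = c := hbc
      exact ⟨a, rfl, this ▸ hb⟩
    · rintro ⟨b, hb, hbc⟩
      have : a = b := hb
      exact ⟨c, this ▸ hbc, rfl⟩
  | cons S w ih =>
    constructor
    · rintro ⟨b, hb, hbc⟩
      obtain ⟨d, hd, hdc⟩ := (ih b).1 hbc
      exact ⟨d, ⟨b, hb, hd⟩, hdc⟩
    · rintro ⟨d, ⟨b, hb, hbd⟩, hdc⟩
      exact ⟨b, hb, (ih b).2 ⟨d, hbd, hdc⟩⟩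

theorem liveNFA_run {h N : ℕ} (hN : h + 2 ≤ N) (w : List (Fin h → Fin h → Bool)) (a : Fin h) :
    ∀ (i : ℕ), i ≤ w.length → ∀ c : Fin h, wordRel (w.take i) a c →
      Relation.ReflTransGen ((liveNFA h N hN).Step w)
        (⟨a.val, by have := a.isLt; omega⟩, 1) (⟨c.val, by have := c.isLt; omega⟩, i + 1) := by
  intro i
  induction i with
  | zero =>
    intro _ c hc
    have hac : a = c := by simpa [wordRel] using hc
    subst hac
    exact Relation.ReflTransGen.refl
  | succ i ih =>
    intro hi c hc
    have hi' : i < w.length := by omega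
    rw [List.take_succ_eq_append_getElem hi', wordRel_snoc] at hc
    obtain ⟨b, hb, hbc⟩ := hc
    refine Relation.ReflTransGen.tail (ih (by omega) b hb) ?_
    refine ⟨HeadMove.moveRight, ?_, ?_⟩
    · show _ ∈ (liveNFA h N hN).step _ (scan w (i + 1))
      rw [scan_succ w i hi']
      exact ⟨b.isLt, c.isLt, hbc, rfl⟩
    · show movePos w.length (i + 1) HeadMove.moveRight = some (i + 1 + 1)
      have : ¬ (w.length + 1 ≤ i + 1) := by omega
      simp only [movePos, this, if_false]

theorem liveNFA_language (h N : ℕ) (hN : h + 2 ≤ N) :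
    (liveNFA h N hN).language = liveness h := by
  apply Set.ext
  intro w
  constructor
  · rintro ⟨⟨q, i⟩, hr, hq⟩
    have inv : ∀ c : Fin N × ℕ, Relation.ReflTransGen ((liveNFA h N hN).Step w)
        ((liveNFA h N hN).start, 0) c →
        (c.1.val = h ∧ c.2 = 0) ∨
        (∃ hq : c.1.val < h, ∃ j, c.2 = j + 1 ∧ j ≤ w.length ∧
          ∃ a, wordRel (w.take j) a ⟨c.1.val, hq⟩) ∨
        (c.1.val = h + 1 ∧ w ∈ liveness h) := by
      intro c hc
      induction hc with
      | refl => exact Or.inl ⟨rfl, rfl⟩
      | @tail b c _ hstep ih =>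
        obtain ⟨m, hm, hpos⟩ := hstep
        rcases ih with ⟨h1, h2⟩ | ⟨hq, j, hj, hjl, a, ha⟩ | ⟨h1, h2⟩
        · rw [h2, scan_zero] at hm
          obtain ⟨_, h4, h5⟩ := hm
          have h5' : m = HeadMove.moveRight := h5
          subst h5'
          right; left
          refine ⟨h4, 0, ?_, Nat.zero_le _, ⟨c.1.val, h4⟩, ?_⟩
          · rw [h2] at hpos
            simp [movePos] at hpos
            omega
          · simp [wordRel]
        · by_cases hjl' : j < w.length
          · rw [hj, scan_succ w j hjl'] at hm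
            obtain ⟨hq', hp', hR, h5⟩ := hm
            have h5' : m = HeadMove.moveRight := h5
            subst h5'
            right; left
            refine ⟨hp', j + 1, ?_, hjl', a, ?_⟩
            · rw [hj] at hpos
              have : ¬ (w.length + 1 ≤ j + 1) := by omega
              simp only [movePos, this, if_false, Option.some.injEq] at hpos
              omega
            · rw [List.take_succ_eq_append_getElem hjl', wordRel_snoc]
              exact ⟨_, ha, hR⟩
          · have hje : j = w.length := by omega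
            rw [hj, hje, scan_last] at hm
            obtain ⟨_, h4, h5⟩ := hm
            right; right
            refine ⟨h4, ?_⟩
            rw [hje, List.take_length] at ha
            exact ⟨_, _, ha⟩
        · exfalso
          rcases hb : scan w b.2 with _ | R | _
          · rw [hb] at hm
            obtain ⟨h3, _, _⟩ := hm
            omega
          · rw [hb] at hm
            obtain ⟨h3, _, _, _⟩ := hm
            omega
          · rw [hb] at hm
            obtain ⟨h3, _, _⟩ := hm
            omega
    have hq' : q.val = h + 1 := hq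
    rcases inv (q, i) hr with ⟨h1, _⟩ | ⟨h1, _⟩ | ⟨_, h2⟩
    · exfalso
      have : q.val = h := h1
      omega
    · exfalso
      have : q.val < h := h1
      omega
    · exact h2
  · rintro ⟨a, b, hab⟩
    refine ⟨(⟨h + 1, by omega⟩, w.length + 1), ?_, rfl⟩
    have h1 : (liveNFA h N hN).Step w ((liveNFA h N hN).start, 0)
        (⟨a.val, by have := a.isLt; omega⟩, 1) := by
      refine ⟨HeadMove.moveRight, ?_, ?_⟩
      · show _ ∈ (liveNFA h N hN).step _ (scan w 0)
        rw [scan_zero]
        exact ⟨rfl, a.isLt, rfl⟩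
      · simp [movePos]
    have h2 := liveNFA_run hN w a w.length le_rfl b (by rwa [List.take_length])
    have h3 : (liveNFA h N hN).Step w (⟨b.val, by have := b.isLt; omega⟩, w.length + 1)
        (⟨h + 1, by omega⟩, w.length + 1) := by
      refine ⟨HeadMove.stay, ?_, ?_⟩
      · show _ ∈ (liveNFA h N hN).step _ (scan w (w.length + 1))
        rw [scan_last]
        exact ⟨b.isLt, rfl, rfl⟩
      · simp [movePos]
    exact (Relation.ReflTransGen.head h1 h2).tail h3

/-- first half of S0444 -/
theorem exist_S0444 (n : ℕ) (hn : 4 ≤ n) :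
    ∃ A : TwoWayNFA (Fin (n - 2) → Fin (n - 2) → Bool) (Fin n),
      A.language = liveness (n - 2) :=
  ⟨liveNFA (n - 2) n (by omega), liveNFA_language _ _ _⟩

/-- first half of S0445 -/
theorem exist_S0445 (h : ℕ) :
    ∃ A : TwoWayNFA (Fin h → Fin h → Bool) (Fin (h + 3)),
      A.NoLeftMoves ∧ A.language = liveness h :=
  ⟨liveNFA h (h + 3) (by omega), liveNFA_noLeft _ _ _, liveNFA_language _ _ _⟩

end Crest.Agent.R294
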