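import Crest.Agent.R294.Core
import Crest.Agent.R294.Bridge
import Crest.Agent.R294.Exist

/-!
R294: final arithmetic and assembly, over `core` (Main) and the bridges.
-/

set_option autoImplicit false

namespace Crest.Agent.R294

open Crest.TwoWay

universe u



theorem final_S0444 (n : ℕ) (hn : 4 ≤ n) (σ : Type u) [Fintype σ]
    (B : TwoWayNFA (Fin (n - 2) → Fin (n - 2) → Bool) σ)
    (hB : B.language = (liveness (n - 2))ᶜ) :
    2 ^ ((n - 4) / 127) ≤ 2 * (Fintype.card σ + 1) := by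
  obtain ⟨c, hc⟩ := bridge_nfa (h := n - 2) B hB
  have h1 := core c hc 63 ((n - 4) / 127) (by
    have := Nat.div_mul_le_self (n - 4) 127
    omega)
  rw [Fintype.card_option] at h1
  set k := (n - 4) / 127 with hk
  have h2 : 16 ^ k ≤ 63 ^ k := Nat.pow_le_pow_left (by norm_num) k
  have h3 : (16 : ℕ) ^ k = 8 ^ k * 2 ^ k := by
    rw [← Nat.mul_pow]
  have h4 : 8 ^ k * 2 ^ k ≤ 8 ^ k * (2 * (Fintype.card σ + 1)) := by
    rw [← h3]; exact h2.trans h1
  exact Nat.le_of_mul_le_mul_left h4 (by positivity)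

theorem final_S0445 (h : ℕ) (hh : 2 ≤ h) (σ : Type u) [Fintype σ]
    (D : TwoWayNFA (Fin h → Fin h → Bool) σ) (hD : D.IsDeterministic)
    (hL : D.language = liveness h) :
    2 ^ ((h - 2) / 31) ≤ 4 * (Fintype.card σ + 1) ^ 2 := by
  obtain ⟨c, hc⟩ := bridge_dfa (h := h) D hD hL
  have h1 := core c hc 15 ((h - 2) / 31) (by
    have := Nat.div_mul_le_self (h - 2) 31
    omega)
  rw [Fintype.card_option] at h1
  set k := (h - 2) / 31 with hk
  have h2 : 15 ^ k * 15 ^ k ≤ (8 ^ k * (2 * (Fintype.card σ + 1))) *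
      (8 ^ k * (2 * (Fintype.card σ + 1))) := Nat.mul_le_mul h1 h1
  have h3 : (15 : ℕ) ^ k * 15 ^ k = 225 ^ k := by
    rw [← Nat.mul_pow]
  have h4 : (128 : ℕ) ^ k ≤ 225 ^ k := Nat.pow_le_pow_left (by norm_num) k
  have h5 : (128 : ℕ) ^ k = (8 ^ k * 8 ^ k) * 2 ^ k := by
    rw [← Nat.mul_pow, ← Nat.mul_pow]
  have h6 : (8 ^ k * 8 ^ k) * 2 ^ k ≤ (8 ^ k * 8 ^ k) * (4 * (Fintype.card σ + 1) ^ 2) := by
    calc (8 ^ k * 8 ^ k) * 2 ^ k = 128 ^ k := h5.symm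
      _ ≤ 225 ^ k := h4
      _ = 15 ^ k * 15 ^ k := h3.symm
      _ ≤ _ := h2
      _ = (8 ^ k * 8 ^ k) * (4 * (Fintype.card σ + 1) ^ 2) := by ring
  exact Nat.le_of_mul_le_mul_left h6 (by positivity)

end Crest.Agent.R294
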