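import Crest.Prelude.Def_TwoWay

/-!
Row 294, existence halves: a nondeterministic automaton with `k ≥ h + 2` states and no left
moves recognising the one-way liveness language on `h` points.
-/

set_option autoImplicit false

namespace Crest.Agent.R294

open Crest.TwoWay

/-- the automaton: points are the states `< h`, the start state is `h`, the accepting state
is `h + 1`. -/
def upAut (h k : ℕ) (hk : h + 2 ≤ k) : TwoWayNFA (Fin h → Fin h → Bool) (Fin k) where
  start := ⟨h, by omega⟩
  accept := {q | q.1 = h + 1}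
  step := fun q c =>
    match c with
    | Cell.leftEnd => {p | p.2 = HeadMove.moveRight ∧ q.1 = h ∧ p.1.1 < h}
    | Cell.letter R => {p | p.2 = HeadMove.moveRight ∧
        ∃ (hq : q.1 < h) (hp : p.1.1 < h), R ⟨q.1, hq⟩ ⟨p.1.1, hp⟩ = true}
    | Cell.rightEnd => {p | p.2 = HeadMove.stay ∧ q.1 < h ∧ p.1.1 = h + 1}

theorem wordRel_append {h : ℕ} (u v : List (Fin h → Fin h → Bool)) (a c : Fin h) :
    wordRel (u ++ v) a c ↔ ∃ b, wordRel u a b ∧ wordRel v b c := by
  induction u generalizing a with
  | nil => simp [wordRel]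
  | cons R u ih =>
    simp only [List.cons_append, wordRel, ih]
    constructor
    · rintro ⟨b, hb, b', h1, h2⟩
      exact ⟨b', ⟨b, hb, h1⟩, h2⟩
    · rintro ⟨b', ⟨b, hb, h1⟩, h2⟩
      exact ⟨b, hb, b', h1, h2⟩

theorem wordRel_singleton {h : ℕ} (R : Fin h → Fin h → Bool) (a c : Fin h) :
    wordRel [R] a c ↔ R a c = true := by
  simp [wordRel]

theorem scan_zero {α : Type*} (w : List α) : scan w 0 = Cell.leftEnd := by
  simp [scan]

theorem scan_succ_lt {α : Type*} (w : List α) (i : ℕ) (hi : i < w.length) :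
    scan w (i + 1) = Cell.letter w[i] := by
  simp [scan, hi]

theorem scan_succ_ge {α : Type*} (w : List α) (i : ℕ) (hi : w.length ≤ i) :
    scan w (i + 1) = Cell.rightEnd := by
  simp [scan, hi]

theorem upAut_noLeft (h k : ℕ) (hk : h + 2 ≤ k) : (upAut h k hk).NoLeftMoves := by
  intro q c p hp
  cases c with
  | leftEnd => simp only [upAut, Set.mem_ofPred_eq] at hp; rw [hp.1]; simp
  | letter R => simp only [upAut, Set.mem_ofPred_eq] at hp; rw [hp.1]; simp
  | rightEnd => simp only [upAut, Set.mem_ofPred_eq] at hp; rw [hp.1]; simp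

theorem upAut_sound (h k : ℕ) (hk : h + 2 ≤ k) (w : List (Fin h → Fin h → Bool))
    (c : Fin k × ℕ)
    (hc : Relation.ReflTransGen ((upAut h k hk).Step w) ((upAut h k hk).start, 0) c) :
    (c.1.1 = h ∧ c.2 = 0) ∨
    (∃ hp : c.1.1 < h, ∃ i, c.2 = i + 1 ∧ i ≤ w.length ∧
      ∃ a, wordRel (w.take i) a ⟨c.1.1, hp⟩) ∨
    (c.1.1 = h + 1 ∧ ∃ a b, wordRel w a b) := by
  induction hc with
  | refl => left; exact ⟨rfl, rfl⟩
  | @tail d e _ hstep ih =>
    obtain ⟨m, hm, hpos⟩ := hstep
    rcases ih with ⟨h1, h2⟩ | ⟨hp, i, h2, hi, a, ha⟩ | ⟨h1, hlive⟩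
    · -- at the left end
      rw [h2, scan_zero] at hm
      simp only [upAut, Set.mem_ofPred_eq] at hm
      obtain ⟨hm1, -, hm3⟩ := hm
      subst hm1
      rw [h2] at hpos
      simp only [movePos] at hpos
      rw [if_neg (by omega)] at hpos
      right; left
      refine ⟨hm3, 0, ?_, Nat.zero_le _, ⟨e.1.1, hm3⟩, ?_⟩
      · simpa using hpos.symm
      · simp [wordRel]
    · by_cases hlt : i < w.length
      · rw [h2, scan_succ_lt w i hlt] at hm
        simp only [upAut, Set.mem_ofPred_eq] at hm
        obtain ⟨hm1, hq, hp', hR⟩ := hm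
        subst hm1
        rw [h2] at hpos
        simp only [movePos] at hpos
        rw [if_neg (by omega)] at hpos
        right; left
        refine ⟨hp', i + 1, ?_, hlt, a, ?_⟩
        · simpa using hpos.symm
        · rw [List.take_succ_eq_append_getElem hlt, wordRel_append]
          exact ⟨_, ha, (wordRel_singleton _ _ _).2 hR⟩
      · have hile : w.length ≤ i := Nat.le_of_not_lt hlt
        rw [h2, scan_succ_ge w i hile] at hm
        simp only [upAut, Set.mem_ofPred_eq] at hm
        obtain ⟨-, -, hm3⟩ := hm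
        right; right
        rw [List.take_of_length_le hile] at ha
        exact ⟨hm3, a, ⟨d.1.1, hp⟩, ha⟩
    · -- accepting state: no move or still live
      exfalso
      cases hs : scan w d.2 with
      | leftEnd =>
        rw [hs] at hm
        simp only [upAut, Set.mem_ofPred_eq] at hm
        omega
      | letter R =>
        rw [hs] at hm
        simp only [upAut, Set.mem_ofPred_eq] at hm
        obtain ⟨-, hq, -⟩ := hm
        omega
      | rightEnd =>
        rw [hs] at hm
        simp only [upAut, Set.mem_ofPred_eq] at hm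
        omega

theorem upAut_reach (h k : ℕ) (hk : h + 2 ≤ k) (w : List (Fin h → Fin h → Bool)) :
    ∀ (i : ℕ) (_ : i ≤ w.length) (a b : Fin h), wordRel (w.take i) a b →
      Relation.ReflTransGen ((upAut h k hk).Step w) ((upAut h k hk).start, 0)
        (⟨b.1, by omega⟩, i + 1) := by
  intro i
  induction i with
  | zero =>
    intro _ a b _
    refine Relation.ReflTransGen.single ⟨HeadMove.moveRight, ?_, ?_⟩
    · rw [scan_zero]
      simp only [upAut, Set.mem_ofPred_eq]
      exact ⟨trivial, trivial, b.2⟩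
    · simp only [movePos]
      rw [if_neg (by omega)]
  | succ i ih =>
    intro hi a b hab
    have hlt : i < w.length := hi
    rw [List.take_succ_eq_append_getElem hlt, wordRel_append] at hab
    obtain ⟨c, hac, hcb⟩ := hab
    rw [wordRel_singleton] at hcb
    refine (ih (by omega) a c hac).tail ⟨HeadMove.moveRight, ?_, ?_⟩
    · rw [scan_succ_lt w i hlt]
      simp only [upAut, Set.mem_ofPred_eq]
      exact ⟨trivial, c.2, b.2, hcb⟩
    · simp only [movePos]
      rw [if_neg (by omega)]

theorem upAut_language (h k : ℕ) (hk : h + 2 ≤ k) :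
    (upAut h k hk).language = liveness h := by
  ext w
  constructor
  · rintro ⟨c, hc, hacc⟩
    have hacc' : c.1.1 = h + 1 := hacc
    rcases upAut_sound h k hk w c hc with ⟨h1, _⟩ | ⟨hp, _⟩ | ⟨_, hl⟩
    · omega
    · omega
    · exact hl
  · rintro ⟨a, b, hab⟩
    have hr := upAut_reach h k hk w w.length le_rfl a b (by rwa [List.take_length])
    refine ⟨(⟨h + 1, by omega⟩, w.length + 1), hr.tail ⟨HeadMove.stay, ?_, ?_⟩, ?_⟩
    · rw [scan_succ_ge w w.length le_rfl]
      simp only [upAut, Set.mem_ofPred_eq]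
      exact ⟨trivial, b.2, trivial⟩
    · simp [movePos]
    · show h + 1 = h + 1
      rfl

/-- first half of `S0445` (and of `S0444`). -/
theorem upper_oneway (h k : ℕ) (hk : h + 2 ≤ k) :
    ∃ A : TwoWayNFA (Fin h → Fin h → Bool) (Fin k),
      A.NoLeftMoves ∧ A.language = liveness h :=
  ⟨upAut h k hk, upAut_noLeft h k hk, upAut_language h k hk⟩

/-- first half of `S0444`. -/
theorem upper_nfa (n : ℕ) (hn : 4 ≤ n) :
    ∃ A : TwoWayNFA (Fin (n - 2) → Fin (n - 2) → Bool) (Fin n),
      A.language = liveness (n - 2) :=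
  ⟨upAut (n - 2) n (by omega), upAut_language (n - 2) n (by omega)⟩

end Crest.Agent.R294
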